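import Vale.Agent.P082.Full.Basic

/-!
P082: convex combinations of rotations, maps commuting with a matrix algebra, and closeness
against a tracial functional.
-/

open Finset
open scoped ComplexConjugate

namespace Vale.Agent.P082.Full

variable {A : Type*} [CStarAlgebra A]

theorem rot_one (h : A →L[ℂ] A) : rot 1 h = h := by ext x; simp

namespace IsAvg

variable {Φ Ψ : (A →L[ℂ] A) → (A →L[ℂ] A)}

theorem of_rot (u : unitary A) : IsAvg (rot u) :=
  ⟨Unit, inferInstance, fun _ => 1, fun _ => u, fun _ => zero_le_one, by simp, fun h => by simp⟩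

theorem map_smul_sum (hΦ : IsAvg Φ) {κ : Type*} (s : Finset κ) (w : κ → ℂ) (g : κ → A →L[ℂ] A) :
    Φ (∑ k ∈ s, w k • g k) = ∑ k ∈ s, w k • Φ (g k) := by
  obtain ⟨ι, _, c, u, -, -, hΦ⟩ := hΦ
  ext x
  simp only [hΦ, _root_.sum_apply, _root_.smul_apply, rot_apply,
    Finset.mul_sum, Finset.smul_sum, mul_smul_comm]
  rw [Finset.sum_comm]
  simp only [smul_comm (w _)]

theorem comp (hΦ : IsAvg Φ) (hΨ : IsAvg Ψ) : IsAvg fun h => Φ (Ψ h) := by
  obtain ⟨ι', _, c', u', hc', hs', hΨ⟩ := hΨ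
  have key := fun h => hΦ.map_smul_sum (univ : Finset ι') (fun i => (c' i : ℂ)) fun i => rot (u' i) h
  obtain ⟨ι, _, c, u, hc, hs, hΦ⟩ := hΦ
  refine ⟨ι' × ι, inferInstance, fun i => c' i.1 * c i.2, fun i => u' i.1 * u i.2,
    fun i => mul_nonneg (hc' _) (hc _), ?_, fun h => ?_⟩
  · simp [Fintype.sum_prod_type, ← Finset.mul_sum, hs, hs']
  · dsimp only
    rw [hΨ, key, Fintype.sum_prod_type]
    refine Finset.sum_congr rfl fun i _ => ?_
    rw [hΦ, Finset.smul_sum]
    simp only [Complex.ofReal_mul, mul_smul, rot_rot]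

theorem mix {κ : Type} [Fintype κ] {w : κ → ℝ} (hw : ∀ k, 0 ≤ w k) (hw1 : ∑ k, w k = 1)
    {Φ : κ → (A →L[ℂ] A) → (A →L[ℂ] A)} (hΦ : ∀ k, IsAvg (Φ k)) :
    IsAvg fun h => ∑ k, (w k : ℂ) • Φ k h := by
  choose ι hι c u hc hs hΦ using hΦ
  refine ⟨Σ k, ι k, inferInstance, fun i => w i.1 * c i.1 i.2, fun i => u i.1 i.2,
    fun i => mul_nonneg (hw _) (hc _ _), ?_, fun h => ?_⟩
  · rw [Fintype.sum_sigma]
    simp only [← Finset.mul_sum, hs, mul_one, hw1]
  · rw [Fintype.sum_sigma]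
    simp only [hΦ, Finset.smul_sum, smul_smul, Complex.ofReal_mul]

theorem norm_le (hΦ : IsAvg Φ) (h : A →L[ℂ] A) : ‖Φ h‖ ≤ ‖h‖ := by
  obtain ⟨ι, _, c, u, hc, hs, hΦ⟩ := hΦ
  rw [hΦ]
  calc ‖∑ i, (c i : ℂ) • rot (u i) h‖ ≤ ∑ i, c i * ‖h‖ := by
        refine (norm_sum_le _ _).trans (Finset.sum_le_sum fun i _ => ?_)
        rw [norm_smul, Complex.norm_real, Real.norm_eq_abs, abs_of_nonneg (hc i)]
        exact mul_le_mul_of_nonneg_left (norm_rot_le _ _) (hc i)
    _ = ‖h‖ := by rw [← Finset.sum_mul, hs, one_mul]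

end IsAvg

/-- `g` and `g'` agree up to `η` on the unit ball, tested against `τ`. -/
def Close (τ : A →ₗ[ℂ] ℂ) (η : ℝ) (g g' : A →L[ℂ] A) : Prop :=
  ∀ z x : A, ‖z‖ ≤ 1 → ‖x‖ ≤ 1 → ‖τ (z * (g x - g' x))‖ ≤ η

namespace Close

variable {τ : A →ₗ[ℂ] ℂ} {η η' : ℝ} {g g' g'' : A →L[ℂ] A}

theorem refl (h : 0 ≤ η) : Close τ η g g := fun z x _ _ => by simpa using h

theorem symm (h : Close τ η g g') : Close τ η g' g := fun z x hz hx => by
  rw [← neg_sub, mul_neg, map_neg, norm_neg]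
  exact h z x hz hx

theorem mono (h : Close τ η g g') (hη : η ≤ η') : Close τ η' g g' :=
  fun z x hz hx => (h z x hz hx).trans hη

theorem trans (h : Close τ η g g') (h' : Close τ η' g' g'') : Close τ (η + η') g g'' :=
  fun z x hz hx => by
    rw [← sub_add_sub_cancel (g x) (g' x) (g'' x), mul_add, map_add]
    exact (norm_add_le _ _).trans (add_le_add (h z x hz hx) (h' z x hz hx))

theorem rot (h : Close τ η g g') (u : unitary A) : Close τ η (rot u g) (Full.rot u g') :=
  fun z x hz hx => by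
    rw [rot_apply, rot_apply, ← mul_sub, ← mul_assoc]
    refine h _ _ ?_ ?_
    · rwa [← Unitary.coe_star, CStarRing.norm_mul_coe_unitary]
    · rwa [CStarRing.norm_coe_unitary_mul]

theorem of_isAvg {Φ : (A →L[ℂ] A) → (A →L[ℂ] A)} (hΦ : IsAvg Φ) (h : Close τ η g g') :
    Close τ η (Φ g) (Φ g') := by
  obtain ⟨ι, _, c, u, hc, hs, hΦ⟩ := hΦ
  intro z x hz hx
  rw [hΦ, hΦ, _root_.sum_apply, _root_.sum_apply, ← Finset.sum_sub_distrib, Finset.mul_sum, map_sum]
  calc ‖∑ i, τ (z * (((c i : ℂ) • Full.rot (u i) g) x - ((c i : ℂ) • Full.rot (u i) g') x))‖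
      ≤ ∑ i, c i * η := by
        refine (norm_sum_le _ _).trans (Finset.sum_le_sum fun i _ => ?_)
        rw [_root_.smul_apply, _root_.smul_apply, ← smul_sub, mul_smul_comm, map_smul, norm_smul,
          Complex.norm_real, Real.norm_eq_abs, abs_of_nonneg (hc i)]
        exact mul_le_mul_of_nonneg_left (h.rot (u i) z x hz hx) (hc i)
    _ = η := by rw [← Finset.sum_mul, hs, one_mul]

end Close

variable {N : ℕ}

/-- `h` commutes with left multiplication by the matrix algebra of `e`. -/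
def Modular (e : MU A N) (h : A →L[ℂ] A) : Prop :=
  ∀ (t : Fin N → Fin N → ℂ) (x : A), h (lin e t * x) = lin e t * h x

theorem Modular.sum (e : MU A N) {κ : Type*} {s : Finset κ} {w : κ → ℂ} {g : κ → A →L[ℂ] A}
    (hg : ∀ k, Modular e (g k)) : Modular e (∑ k ∈ s, w k • g k) := fun t x => by
  simp only [_root_.sum_apply, _root_.smul_apply, hg _ t x, Finset.mul_sum, mul_smul_comm]

theorem avg_apply (e : MU A N) (h : A →L[ℂ] A) (x : A) :
    avg e h x = (N : ℂ)⁻¹ • ∑ p, ∑ q, e.e q p * h (e.e p q * x) := by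
  simp [avg, _root_.sum_apply]

theorem modular_avg (e : MU A N) (h : A →L[ℂ] A) : Modular e (avg e h) := by
  intro t x
  have key : ∀ r s, avg e h (e.e r s * x) = e.e r s * avg e h x := fun r s => by
    rw [avg_apply, avg_apply, mul_smul_comm]
    congr 1
    simp only [Finset.mul_sum, ← mul_assoc, e.mul_e, ite_mul, zero_mul, apply_ite h, map_zero,
      mul_ite, mul_zero, Finset.sum_ite_eq', Finset.mem_univ, if_true]
    rw [Finset.sum_comm]
    simp
  simp only [lin, Finset.sum_mul, map_sum, smul_mul_assoc, map_smul, key]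

theorem Modular.rot_lin {e : MU A N} {h : A →L[ℂ] A} (hh : Modular e h) {u : unitary A}
    {t : Fin N → Fin N → ℂ} (hu : (u : A) = lin e t) : rot u h = h := by
  ext x
  rw [rot_apply, hu, hh, ← hu, ← mul_assoc, Unitary.coe_star_mul_self, one_mul]

theorem avg_eq [NeZero N] (e : MU A N) (h : A →L[ℂ] A) :
    avg e h = ∑ s : Fin N × (Fin N → Fin 4), (((N : ℝ) * 4 ^ N)⁻¹ : ℂ) •
      rot ⟨lin e (pauliC s), pauli_mem_unitary e s⟩ h := by
  ext x
  rw [avg_apply, _root_.sum_apply]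
  simp only [_root_.smul_apply, rot_apply, ← Finset.smul_sum]
  have : ∀ s : Fin N × (Fin N → Fin 4), star (lin e (pauliC s)) * h (lin e (pauliC s) * x) =
      ∑ a, ∑ b, ∑ c, ∑ d, (conj (pauliC s a b) * pauliC s c d) • (e.e b a * h (e.e c d * x)) := by
    intro s
    rw [show star (lin e (pauliC s)) = ∑ a, ∑ b, conj (pauliC s a b) • e.e b a by
      simp only [lin, star_sum, star_smul, e.star_e, Complex.star_def]]
    simp only [Finset.sum_mul, smul_mul_assoc]
    refine Finset.sum_congr rfl fun a _ => Finset.sum_congr rfl fun b _ => ?_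
    simp only [lin, Finset.sum_mul, smul_mul_assoc, map_sum, map_smul, Finset.mul_sum,
      Finset.smul_sum, mul_smul_comm, smul_smul]
  simp only [this, Finset.sum_comm (s := (univ : Finset (Fin N × (Fin N → Fin 4))))]
  simp only [← Finset.sum_smul, pauli_cov, ite_and, ite_smul, zero_smul, Finset.sum_ite_eq,
    Finset.sum_ite_irrel, Finset.sum_const_zero, Finset.mem_univ, if_true]
  have h4 : (((N : ℝ) * 4 ^ N)⁻¹ : ℂ) * (4 : ℂ) ^ N = (N : ℂ)⁻¹ := by
    push_cast
    rw [mul_inv, mul_assoc, inv_mul_cancel₀ (pow_ne_zero _ (by norm_num)), mul_one]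
  simp only [← Finset.smul_sum, smul_smul, h4]

theorem isAvg_avg [NeZero N] (e : MU A N) : IsAvg (avg e) := by
  refine ⟨Fin N × (Fin N → Fin 4), inferInstance, fun _ => ((N : ℝ) * 4 ^ N)⁻¹,
    fun s => ⟨lin e (pauliC s), pauli_mem_unitary e s⟩, fun _ => by positivity, ?_, fun h => ?_⟩
  · rw [Finset.sum_const, Finset.card_univ, nsmul_eq_mul, Fintype.card_prod, Fintype.card_fun,
      Fintype.card_fin, Fintype.card_fin]
    push_cast
    exact mul_inv_cancel₀ (mul_ne_zero (Nat.cast_ne_zero.2 (NeZero.ne N))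
      (pow_ne_zero _ (by norm_num)))
  · rw [avg_eq]
    simp only [Complex.ofReal_inv]
    push_cast
    rfl

theorem avg_of_modular [NeZero N] {e : MU A N} {h : A →L[ℂ] A} (hh : Modular e h) :
    avg e h = h := by
  rw [avg_eq, Finset.sum_congr rfl fun s _ => by
    rw [hh.rot_lin (u := ⟨lin e (pauliC s), pauli_mem_unitary e s⟩) rfl]]
  rw [Finset.sum_const, Finset.card_univ, ← Nat.cast_smul_eq_nsmul ℂ, smul_smul, Fintype.card_prod,
    Fintype.card_fun, Fintype.card_fin, Fintype.card_fin]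
  push_cast
  rw [mul_inv_cancel₀ (mul_ne_zero (Nat.cast_ne_zero.2 (NeZero.ne N))
    (pow_ne_zero _ (by norm_num))), one_smul]

theorem iter_append (e : MU A N) (b c : List (unitary A)) (h : A →L[ℂ] A) :
    iter e (b ++ c) h = iter e c (iter e b h) := by
  simp [iter, List.foldl_append]

theorem modular_iter (e : MU A N) (c : List (unitary A)) {h : A →L[ℂ] A} (hh : Modular e h) :
    Modular e (iter e c h) := by
  induction c generalizing h with
  | nil => exact hh
  | cons a c ih => exact ih (modular_avg e _)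

theorem isAvg_iter [NeZero N] (e : MU A N) (c : List (unitary A)) : IsAvg (iter e c) := by
  induction c with
  | nil =>
    have : iter e ([] : List (unitary A)) = rot (1 : unitary A) := funext fun h => (rot_one h).symm
    rw [this]
    exact IsAvg.of_rot 1
  | cons a c ih =>
    exact ih.comp ((isAvg_avg e).comp (IsAvg.of_rot a))

theorem MU.norm_le (e : MU A N) (i j : Fin N) : ‖e.e i j‖ ≤ 1 := by
  have hp : ‖e.e j j‖ * ‖e.e j j‖ = ‖e.e j j‖ := by
    rw [← CStarRing.norm_star_mul_self, e.star_e, e.mul_e, if_pos rfl]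
  have h1 : ‖e.e j j‖ ≤ 1 := by nlinarith [norm_nonneg (e.e j j)]
  have h2 : ‖e.e i j‖ * ‖e.e i j‖ = ‖e.e j j‖ := by
    rw [← CStarRing.norm_star_mul_self, e.star_e, e.mul_e, if_pos rfl]
  nlinarith [norm_nonneg (e.e i j)]

end Vale.Agent.P082.Full
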