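import Vale.Agent.P082.Full.Crossing
import Vale.Agent.P082.Full.AvgLemmas

/-!
P082: an average of rotations is almost modular over the conjugates of the small units.
-/

open Finset MeasureTheory Filter

namespace Vale.Agent.P082.Full

variable {A : Type*} [CStarAlgebra A]

/-- The symmetric harmonic polynomial tests the powers of a unitary against their inverses. -/
theorem sum_powers_le {τ : A →ₗ[ℂ] ℂ} (hτ : IsTr τ) {G : A →L[ℂ] A} (hG : ‖G‖ ≤ 1) {w : A}
    (hw : w ∈ unitary A) (z x : A) (hz : ‖z‖ ≤ 1) (hx : ‖x‖ ≤ 1) (M : ℕ) :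
    ‖∑ n ∈ range M, ((((n : ℝ) + 1)⁻¹ : ℝ) : ℂ) *
      (sample τ G z x (w ^ (n + 1)) - sample τ G z x (star w ^ (n + 1)))‖ ≤ 10 := by
  let c : ℕ → ℂ := fun k => ∑ n ∈ range M, ((((n : ℝ) + 1)⁻¹ : ℝ) : ℂ) *
    ((if k = M + (n + 1) then 1 else 0) - if k = M - (n + 1) then 1 else 0)
  have hsum : ∀ f : ℕ → ℂ, ∑ k ∈ range (2 * M + 1), c k * f k = ∑ n ∈ range M,
      ((((n : ℝ) + 1)⁻¹ : ℝ) : ℂ) * (f (M + (n + 1)) - f (M - (n + 1))) := by
    intro f
    simp only [c, Finset.sum_mul]
    rw [Finset.sum_comm]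
    refine Finset.sum_congr rfl fun n hn => ?_
    have := mem_range.1 hn
    simp only [mul_assoc, ← Finset.mul_sum, sub_mul, ite_mul, one_mul, zero_mul,
      Finset.sum_sub_distrib, Finset.sum_ite_eq', mem_range]
    rw [if_pos (by omega), if_pos (by omega)]
  have hc : ∀ v : ℂ, ‖v‖ = 1 → ‖∑ k ∈ range (2 * M + 1), c k * v ^ k‖ ≤ 10 := fun v hv => by
    have hv0 : v ≠ 0 := fun h => by simp [h] at hv
    rw [hsum fun k => v ^ k, show ∑ n ∈ range M, ((((n : ℝ) + 1)⁻¹ : ℝ) : ℂ) *
        (v ^ (M + (n + 1)) - v ^ (M - (n + 1))) = v ^ M *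
        ∑ n ∈ range M, ((n : ℝ) + 1)⁻¹ • (v ^ (n + 1) - v⁻¹ ^ (n + 1)) by
      rw [Finset.mul_sum]
      refine Finset.sum_congr rfl fun n hn => ?_
      rw [pow_sub₀ _ hv0 (by have := mem_range.1 hn; omega), pow_add, inv_pow, Complex.real_smul]
      ring]
    rw [norm_mul, norm_pow, hv, one_pow, one_mul]
    exact Fourier.sine_le hv M
  have hsw : star w ∈ unitary A := Unitary.star_mem hw
  have e1 : ∀ j : ℕ, w ^ j * star w ^ j = 1 := fun j => by
    rw [← star_pow]; exact Unitary.mul_star_self_of_mem (pow_mem hw j)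
  have e2 : ∀ j : ℕ, star w ^ j * w ^ j = 1 := fun j => by
    rw [← star_pow]; exact Unitary.star_mul_self_of_mem (pow_mem hw j)
  have hle := Fourier.fourier_le hτ.toIsTrace (h := (G : A →ₗ[ℂ] A)) zero_le_one
    (fun y => (G.le_opNorm y).trans (mul_le_mul_of_nonneg_right hG (norm_nonneg _))) hw
    (z * w ^ M) (star w ^ M * x) (2 * M + 1) c (by norm_num : (0 : ℝ) ≤ 10) hc
  rw [hsum fun k => τ (z * w ^ M * star w ^ k * (G : A →ₗ[ℂ] A) (w ^ k * (star w ^ M * x)))] at hle
  refine le_trans (le_of_eq ?_) (hle.trans ?_)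
  · congr 1
    refine Finset.sum_congr rfl fun n hn => ?_
    obtain ⟨j, rfl⟩ : ∃ j, M = n + 1 + j := ⟨M - (n + 1), by have := mem_range.1 hn; omega⟩
    congr 1
    congr 1
    · rw [show n + 1 + j + (n + 1) = (n + 1) + (n + 1 + j) by omega]
      generalize n + 1 + j = M
      have p1 : w ^ M * star w ^ (n + 1 + M) = star w ^ (n + 1) := by
        rw [Nat.add_comm (n + 1) M, pow_add (star w) M (n + 1), ← mul_assoc, e1, one_mul]
      have p2 : w ^ (n + 1 + M) * (star w ^ M * x) = w ^ (n + 1) * x := by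
        rw [pow_add w (n + 1) M, mul_assoc, ← mul_assoc (w ^ M), e1, one_mul]
      rw [sample, star_pow, ContinuousLinearMap.coe_coe, mul_assoc z (w ^ M), p1, p2, mul_assoc z]
    · rw [show n + 1 + j - (n + 1) = j by omega]
      have p1 : w ^ (n + 1 + j) * star w ^ j = w ^ (n + 1) := by
        rw [pow_add w (n + 1) j, mul_assoc, e1, mul_one]
      have p2 : w ^ j * (star w ^ (n + 1 + j) * x) = star w ^ (n + 1) * x := by
        rw [Nat.add_comm (n + 1) j, pow_add (star w) j (n + 1), ← mul_assoc, ← mul_assoc, e1, one_mul]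
      rw [sample, star_pow, star_star, ContinuousLinearMap.coe_coe, mul_assoc z (w ^ (n + 1 + j)), p1,
        p2, mul_assoc z]
  · have h1 : ‖z * w ^ M‖ ≤ 1 := by
      rwa [CStarRing.norm_mul_mem_unitary z (pow_mem hw M)]
    have h2 : ‖star w ^ M * x‖ ≤ 1 := by
      rwa [CStarRing.norm_mem_unitary_mul x (pow_mem hsw M)]
    have h3 : 0 ≤ (τ 1).re := by simpa using hτ.pos 1
    have h4 := hτ.le_one
    calc 1 * ‖z * w ^ M‖ * ‖star w ^ M * x‖ * 10 * (τ 1).re ≤ 1 * 1 * 1 * 10 * 1 := by gcongr
      _ = 10 := by norm_num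

theorem mul_prod_map (V : A) : ∀ m : List A,
    V * (m.map fun b => b * V).prod = (m.map fun b => V * b).prod * V
  | [] => by simp
  | b :: m => by
    simp only [List.map_cons, List.prod_cons, mul_assoc]
    rw [mul_prod_map V m]

theorem wordU_eq (c : List (unitary A)) (V : A) :
    wordU c V = (c.map fun b : unitary A => (b : A) * V).prod := by
  simp [wordU]

theorem star_prod_map (V : A) : ∀ r : List (unitary A),
    star (r.map fun b : unitary A => (b : A) * V).prod =
      ((r.reverse.map fun b : unitary A => star (b : A)).map fun b => star V * b).prod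
  | [] => by simp
  | b :: r => by
    rw [List.map_cons, List.prod_cons, star_mul, star_prod_map V r, List.reverse_cons,
      List.map_append, List.map_append, List.prod_append, List.map_singleton, List.map_singleton,
      List.prod_singleton, star_mul]

theorem star_wordU (V : A) (a : unitary A) (r : List (unitary A)) :
    star (wordU (a :: r) V) = star V * wordU (r.reverse.map star) (star V) * star (a : A) := by
  simp only [wordU_eq, List.map_cons, List.prod_cons, star_mul, star_prod_map]
  rw [← mul_assoc, ← mul_prod_map (star V)]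
  simp [List.map_map, Function.comp_def]

theorem wordU_flatten (l : List (unitary A)) (V : A) : ∀ n : ℕ,
    wordU (List.replicate n l).flatten V = wordU l V ^ n
  | 0 => by simp [wordU]
  | n + 1 => by
    have ih := wordU_flatten l V n
    simp only [wordU_eq] at ih ⊢
    rw [List.replicate_succ, List.flatten_cons, List.map_append, List.prod_append, ih, pow_succ']

theorem flatten_rotate {α : Type*} (p q : List α) : ∀ n : ℕ,
    (List.replicate n (p ++ q)).flatten ++ p = p ++ (List.replicate n (q ++ p)).flatten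
  | 0 => by simp
  | n + 1 => by
    simp only [List.replicate_succ, List.flatten_cons, List.append_assoc, flatten_rotate p q n]

/-- The logarithmic weights. -/
noncomputable def wgt (M : ℕ) (n : Fin M) : ℝ :=
  ((n : ℕ) + 1 : ℝ)⁻¹ / ∑ k ∈ range M, ((k : ℝ) + 1)⁻¹

theorem wgt_nonneg (M : ℕ) (n : Fin M) : 0 ≤ wgt M n := by
  unfold wgt; positivity

/-- The logarithmic average along the powers of the word `l`. -/
noncomputable def logAvg {N : ℕ} (e : MU A N) (l : List (unitary A)) (M : ℕ) (G : A →L[ℂ] A) :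
    A →L[ℂ] A :=
  ∑ n : Fin M, (wgt M n : ℂ) • iter e (List.replicate ((n : ℕ) + 1) l).flatten G

/-- Moving the start of the word. -/
theorem iter_logAvg {N : ℕ} [NeZero N] (e : MU A N) (p q : List (unitary A)) (M : ℕ)
    (G : A →L[ℂ] A) :
    iter e p (logAvg e (p ++ q) M G) = logAvg e (q ++ p) M (iter e p G) := by
  rw [logAvg, (isAvg_iter e p).map_smul_sum, logAvg]
  refine Finset.sum_congr rfl fun n _ => ?_
  rw [← iter_append, ← iter_append, flatten_rotate]

/-- Rotating the logarithmic average by the first letter gives almost a modular map. -/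
theorem close_first {N : ℕ} [NeZero N] (e : MU A N) {L M : ℕ} {ε δ : ℝ} {τ : A →ₗ[ℂ] ℂ}
    (hτ : IsTr τ) (hM : 0 < M)
    (hcross : ∀ c : List (unitary A), c.length ≤ M * L → (∀ a ∈ c, Spread e δ (a : A)) →
      ∀ h : A →L[ℂ] A, ‖h‖ ≤ 1 → ∀ z x : A, ‖z‖ ≤ 1 → ‖x‖ ≤ 1 →
        ‖(∫ U, sample τ h z x (wordU c (emb e U)) ∂haar N) - τ (z * iter e c h x)‖ ≤ ε ∧
        ‖(∫ U, sample τ h z x (wordU c (star (emb e U))) ∂haar N) - τ (z * iter e c h x)‖ ≤ ε)
    (a : unitary A) (r : List (unitary A)) (hL : (a :: r).length ≤ L)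
    (hsp : ∀ b ∈ a :: r, Spread e δ (b : A)) {G : A →L[ℂ] A} (hG : ‖G‖ ≤ 1) (hGm : Modular e G) :
    ∃ S, Modular e S ∧
      Close τ (10 / (∑ k ∈ range M, ((k : ℝ) + 1)⁻¹) + 2 * ε) (rot a (logAvg e (a :: r) M G)) S := by
  set l := a :: r with hl
  set H : ℝ := ∑ k ∈ range M, ((k : ℝ) + 1)⁻¹
  have hH : 0 < H := Finset.sum_pos (fun k _ => by positivity) ⟨0, mem_range.2 hM⟩
  have hw1 : ∑ n : Fin M, wgt M n = 1 := by
    simp only [wgt, ← Finset.sum_div]
    rw [Fin.sum_univ_eq_sum_range (fun k => ((k : ℝ) + 1)⁻¹), div_self hH.ne']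
  let neg : ℕ → List (unitary A) := fun n =>
    (r ++ (List.replicate n l).flatten).reverse.map star
  refine ⟨∑ n : Fin M, (wgt M n : ℂ) • iter e (neg n) G,
    Modular.sum e fun n => modular_iter e _ hGm, ?_⟩
  have hlen : ∀ n < M, (List.replicate (n + 1) l).flatten.length ≤ M * L := fun n hn => by
    simp only [List.length_flatten, List.map_replicate, List.sum_replicate, smul_eq_mul]
    exact mul_le_mul (by omega) hL (Nat.zero_le _) (Nat.zero_le _)
  have hspn : ∀ n, ∀ b ∈ (List.replicate (n + 1) l).flatten, Spread e δ (b : A) := fun n b hb => by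
    obtain ⟨m, hm, hb⟩ := List.mem_flatten.1 hb
    rw [List.eq_of_mem_replicate hm] at hb
    exact hsp b hb
  have hflat : ∀ n, (List.replicate (n + 1) l).flatten = a :: (r ++ (List.replicate n l).flatten) :=
    fun n => by simp [hl, List.replicate_succ]
  have hposneg : ∀ z x : A, ‖z‖ ≤ 1 → ‖x‖ ≤ 1 → ∀ n : Fin M,
      ‖(∫ U, sample τ G z x (wordU (List.replicate ((n : ℕ) + 1) l).flatten (emb e U)) ∂haar N) -
          τ (z * iter e (List.replicate ((n : ℕ) + 1) l).flatten G x)‖ ≤ ε ∧
      ‖(∫ U, sample τ G (z * a) (star (a : A) * x) (wordU (neg n) (star (emb e U))) ∂haar N) -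
          τ (z * a * iter e (neg n) G (star (a : A) * x))‖ ≤ ε := by
    intro z x hz hx n
    refine ⟨(hcross _ (hlen n n.2) (hspn n) G hG z x hz hx).1,
      (hcross _ ?_ ?_ G hG _ _ ?_ ?_).2⟩
    · have := hlen n n.2
      rw [hflat] at this
      simp only [neg, List.length_cons, List.length_map, List.length_reverse] at this ⊢
      omega
    · intro b hb
      obtain ⟨b', hb', rfl⟩ := List.mem_map.1 hb
      have := hspn n b' (by rw [hflat]; exact List.mem_cons_of_mem _ (List.mem_reverse.1 hb'))
      intro p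
      rw [Unitary.coe_star, star_star]
      exact ⟨(this p).2, (this p).1⟩
    · rwa [CStarRing.norm_mul_coe_unitary]
    · rwa [← Unitary.coe_star, CStarRing.norm_coe_unitary_mul]
  have hpoint : ∀ z x : A, ‖z‖ ≤ 1 → ‖x‖ ≤ 1 → ∀ U : UN N,
      ‖∑ n : Fin M, (wgt M n : ℂ) *
        (sample τ G z x (wordU (List.replicate ((n : ℕ) + 1) l).flatten (emb e U)) -
          sample τ G (z * a) (star (a : A) * x) (wordU (neg n) (star (emb e U))))‖ ≤ 10 / H := by
    intro z x hz hx U
    have hVm := emb_mem_unitary e U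
    set w := wordU l (emb e U) with hw
    have hwu : w ∈ unitary A := list_prod_mem fun y hy => by
      obtain ⟨b, -, rfl⟩ := List.mem_map.1 hy
      exact mul_mem b.2 hVm
    have hneg : ∀ n : ℕ, sample τ G z x (star w ^ (n + 1)) =
        sample τ G (z * a) (star (a : A) * x) (wordU (neg n) (star (emb e U))) := by
      intro n
      rw [← star_pow, hw, ← wordU_flatten, hflat, star_wordU]
      have hGs : ∀ y, G (star (emb e U) * y) = star (emb e U) * G y := fun y => by
        show G (star (lin e fun i j => (U : Matrix (Fin N) (Fin N) ℂ) i j) * y) =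
          star (lin e fun i j => (U : Matrix (Fin N) (Fin N) ℂ) i j) * G y
        rw [MU.star_lin]
        exact hGm _ y
      simp only [sample, neg, star_mul, star_star, mul_assoc]
      rw [hGs, ← mul_assoc (emb e U), Unitary.mul_star_self_of_mem hVm, one_mul]
    have e1 : ∑ n : Fin M, (wgt M n : ℂ) *
        (sample τ G z x (wordU (List.replicate ((n : ℕ) + 1) l).flatten (emb e U)) -
          sample τ G (z * a) (star (a : A) * x) (wordU (neg n) (star (emb e U)))) =
        (H : ℂ)⁻¹ * ∑ n ∈ range M, ((((n : ℝ) + 1)⁻¹ : ℝ) : ℂ) *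
          (sample τ G z x (w ^ (n + 1)) - sample τ G z x (star w ^ (n + 1))) := by
      rw [Finset.mul_sum, ← Fin.sum_univ_eq_sum_range]
      refine Finset.sum_congr rfl fun n _ => ?_
      rw [hneg, hw, ← wordU_flatten, wgt]
      push_cast [H]
      ring
    rw [e1, norm_mul, norm_inv, Complex.norm_real, Real.norm_eq_abs, abs_of_pos hH,
      ← div_eq_inv_mul]
    exact div_le_div_of_nonneg_right (sum_powers_le hτ hG hwu z x hz hx M) hH.le
  have hmain : Close τ (10 / H + 2 * ε) (logAvg e l M G)
      (rot (star a) (∑ n : Fin M, (wgt M n : ℂ) • iter e (neg n) G)) := by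
    intro z x hz hx
    set P : Fin M → ℂ := fun n => τ (z * iter e (List.replicate ((n : ℕ) + 1) l).flatten G x)
    set Q : Fin M → ℂ := fun n => τ (z * a * iter e (neg n) G (star (a : A) * x))
    set IP : Fin M → ℂ := fun n =>
      ∫ U, sample τ G z x (wordU (List.replicate ((n : ℕ) + 1) l).flatten (emb e U)) ∂haar N
    set IQ : Fin M → ℂ := fun n =>
      ∫ U, sample τ G (z * a) (star (a : A) * x) (wordU (neg n) (star (emb e U))) ∂haar N
    have ev : τ (z * (logAvg e l M G x -
        rot (star a) (∑ n : Fin M, (wgt M n : ℂ) • iter e (neg n) G) x)) =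
        ∑ n, (wgt M n : ℂ) * (IP n - IQ n) + ∑ n, (wgt M n : ℂ) * ((P n - IP n) - (Q n - IQ n)) := by
      rw [← Finset.sum_add_distrib, rot_apply, Unitary.coe_star, star_star, logAvg]
      simp only [_root_.sum_apply, _root_.smul_apply, mul_sub, map_sub, Finset.mul_sum,
        mul_smul_comm, map_sum, map_smul, smul_eq_mul, P, Q, mul_assoc, ← Finset.sum_sub_distrib]
      refine Finset.sum_congr rfl fun n _ => ?_
      ring
    have hi : ∀ n : Fin M, Integrable (fun U : UN N =>
        sample τ G z x (wordU (List.replicate ((n : ℕ) + 1) l).flatten (emb e U))) (haar N) ∧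
        Integrable (fun U : UN N =>
          sample τ G (z * a) (star (a : A) * x) (wordU (neg n) (star (emb e U)))) (haar N) := fun n =>
      ⟨(continuous_sample e τ hτ z x _).1.integrable_of_hasCompactSupport
          (HasCompactSupport.of_compactSpace _),
        (continuous_sample e τ hτ (z * a) (star (a : A) * x) _).2.integrable_of_hasCompactSupport
          (HasCompactSupport.of_compactSpace _)⟩
    have hint : ∑ n, (wgt M n : ℂ) * (IP n - IQ n) = ∫ U, ∑ n : Fin M, (wgt M n : ℂ) *
        (sample τ G z x (wordU (List.replicate ((n : ℕ) + 1) l).flatten (emb e U)) -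
          sample τ G (z * a) (star (a : A) * x) (wordU (neg n) (star (emb e U)))) ∂haar N := by
      rw [integral_finsetSum _ fun n _ => ((hi n).1.sub' (hi n).2).const_mul _]
      refine Finset.sum_congr rfl fun n _ => ?_
      rw [integral_const_mul, integral_sub (hi n).1 (hi n).2]
    rw [ev]
    refine (norm_add_le _ _).trans (add_le_add ?_ ?_)
    · rw [hint]
      refine (norm_integral_le_of_norm_le_const (C := 10 / H)
        (Filter.Eventually.of_forall (hpoint z x hz hx))).trans_eq ?_
      simp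
    · refine (norm_sum_le _ _).trans ((Finset.sum_le_sum (g := fun n => wgt M n * (2 * ε))
        fun n _ => ?_).trans_eq (by rw [← Finset.sum_mul, hw1, one_mul]))
      rw [norm_mul, Complex.norm_real, Real.norm_eq_abs, abs_of_nonneg (wgt_nonneg M n)]
      refine mul_le_mul_of_nonneg_left ((norm_sub_le _ _).trans ?_) (wgt_nonneg M n)
      obtain ⟨k1, k2⟩ := hposneg z x hz hx n
      rw [norm_sub_rev (P n), norm_sub_rev (Q n)]
      linarith
  have h := hmain.rot a
  rwa [rot_rot, Unitary.star_mul_self, rot_one] at h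

theorem exists_avg {q : MU A 2} (hq : Ample q) (s : Finset (unitary A)) {ε : ℝ} (hε : 0 < ε) :
    ∃ Φ, IsAvg Φ ∧ ∀ τ : A →ₗ[ℂ] ℂ, IsTr τ → ∀ h : A →L[ℂ] A, ‖h‖ ≤ 1 →
      ∀ z x : A, ‖z‖ ≤ 1 → ‖x‖ ≤ 1 → ∀ a ∈ s, ∀ i j,
        ‖τ (z * (Φ h ((a : A) * q.e i j * star (a : A) * x) -
          (a : A) * q.e i j * star (a : A) * Φ h x))‖ ≤ ε := by
  classical
  let P : List (unitary A) → List (unitary A) := fun u => u.flatMap fun a => [a, star a]
  set l := P s.toList with hl
  set k := s.toList.length with hk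
  set η := ε / (2 * (4 * k + 1)) with hηdef
  have hη : 0 < η := by positivity
  obtain ⟨M, hM⟩ := ((tendsto_atTop.1 Real.tendsto_sum_range_one_div_nat_succ_atTop) (20 / η)).exists
  simp only [one_div] at hM
  have h20 : 0 < 20 / η := by positivity
  have hM0 : 0 < M := by
    rcases Nat.eq_zero_or_pos M with rfl | h
    · simp only [range_zero, sum_empty] at hM; linarith
    · exact h
  have hη1 : 10 / (∑ n ∈ range M, ((n : ℝ) + 1)⁻¹) + 2 * (η / 4) ≤ η := by
    have : 10 / (∑ n ∈ range M, ((n : ℝ) + 1)⁻¹) ≤ η / 2 := by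
      rw [div_le_iff₀ (h20.trans_le hM)]
      rw [div_le_iff₀ hη] at hM
      linarith
    linarith
  obtain ⟨δ, hδ, N0, hcross⟩ := crossing (M * l.length) (show (0 : ℝ) < η / 4 by positivity)
  obtain ⟨N, hN0, hNpos, e, href, hsp⟩ := hq (s ∪ s.image star) δ hδ N0
  have : NeZero N := ⟨hNpos.ne'⟩
  have hspl : ∀ b ∈ l, Spread e δ (b : A) := fun b hb => by
    obtain ⟨a, ha, hb⟩ := List.mem_flatMap.1 hb
    rw [Finset.mem_toList] at ha
    simp only [List.mem_cons, List.not_mem_nil, or_false] at hb
    rcases hb with rfl | rfl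
    · exact hsp _ (mem_union_left _ ha)
    · exact hsp _ (mem_union_right _ (mem_image_of_mem _ ha))
  refine ⟨fun h => logAvg e l M (avg e h), ?_, ?_⟩
  · have hw1 : ∑ n : Fin M, wgt M n = 1 := by
      simp only [wgt, ← Finset.sum_div]
      rw [Fin.sum_univ_eq_sum_range (fun k => ((k : ℝ) + 1)⁻¹), div_self (h20.trans_le hM).ne']
    exact IsAvg.mix (wgt_nonneg M) hw1 fun n => (isAvg_iter e _).comp (isAvg_avg e)
  intro τ hτ h hh z x hz hx a ha i j
  set T := avg e h
  set X := logAvg e l M T with hX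
  -- each letter
  have hstep : ∀ (p : List (unitary A)) (b : unitary A) (r : List (unitary A)), l = p ++ b :: r →
      ∃ S, Modular e S ∧ Close τ η (rot b (iter e p X)) S ∧
        Close τ (2 * η) (iter e (p ++ [b]) X) (rot b (iter e p X)) := by
    intro p b r hpr
    have hlen : (b :: r ++ p).length ≤ l.length := by
      simp only [hpr, List.length_append, List.length_cons]; omega
    have hmem : ∀ c ∈ b :: r ++ p, Spread e δ (c : A) := fun c hc => hspl c (by
      rw [hpr]
      simp only [List.mem_append, List.mem_cons] at hc ⊢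
      tauto)
    obtain ⟨S, hSm, hS⟩ := close_first e (ε := η / 4) hτ hM0
      (fun c h1 h2 g hg z x hz hx => hcross hN0 e c h1 h2 τ hτ g hg z x hz hx)
      b (r ++ p) (by simpa using hlen) (by simpa using hmem)
      (G := iter e p T) (((isAvg_iter e p).norm_le T).trans (((isAvg_avg e).norm_le h).trans hh))
      (modular_iter e p (modular_avg e h))
    have hXp : iter e p X = logAvg e (b :: (r ++ p)) M (iter e p T) := by
      rw [hX, hpr, iter_logAvg]; rfl
    rw [← hXp] at hS
    have hS' := hS.mono hη1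
    refine ⟨S, hSm, hS', ?_⟩
    have hav := Close.of_isAvg (isAvg_avg e) hS'
    rw [avg_of_modular hSm] at hav
    rw [iter_append, two_mul]
    exact hav.trans hS'.symm
  have hind : ∀ u v : List (unitary A), s.toList = u ++ v →
      Close τ (4 * u.length * η) (iter e (P u) X) X := by
    intro u
    induction u using List.reverseRecOn with
    | nil => intro v _; simp only [P, List.flatMap_nil, iter, List.foldl_nil]; exact Close.refl (by simp)
    | append_singleton u b ih =>
      intro v huv
      have h0 := ih (b :: v) (by simpa using huv)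
      have e1 : l = P u ++ b :: (star b :: P v) := by simp [hl, P, huv]
      have e2 : l = (P u ++ [b]) ++ star b :: P v := by simp [hl, P, huv]
      obtain ⟨-, -, -, k1⟩ := hstep _ _ _ e1
      obtain ⟨-, -, -, k2⟩ := hstep _ _ _ e2
      have k3 := k1.rot (star b)
      rw [rot_rot, Unitary.mul_star_self, rot_one] at k3
      rw [show P (u ++ [b]) = P u ++ [b] ++ [star b] by simp [P]]
      refine ((k2.trans k3).trans h0).mono (le_of_eq ?_)
      simp only [List.length_append, List.length_cons, List.length_nil]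
      push_cast
      ring
  obtain ⟨u, v, huv⟩ := List.append_of_mem (Finset.mem_toList.2 ha)
  have e1 : l = P u ++ a :: (star a :: P v) := by simp [hl, P, huv]
  obtain ⟨S, hSm, hS, -⟩ := hstep _ _ _ e1
  have hkey : Close τ ((4 * k + 1) * η) (rot a X) S := by
    refine (((hind u (a :: v) huv).symm.rot a).trans hS).mono ?_
    have : (u.length : ℝ) ≤ k := by
      rw [hk, huv]; simp only [List.length_append]; exact_mod_cast Nat.le_add_right _ _
    nlinarith
  -- modularity over the conjugated units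
  obtain ⟨t, ht⟩ := href i j
  have hq1 : ‖q.e i j‖ ≤ 1 := q.norm_le i j
  have hax : ‖star (a : A) * x‖ ≤ 1 := by rwa [← Unitary.coe_star, CStarRing.norm_coe_unitary_mul]
  have hza : ‖z * (a : A)‖ ≤ 1 := by rwa [CStarRing.norm_mul_coe_unitary]
  have hX' : ∀ y, X ((a : A) * y) = (a : A) * rot a X y := fun y => by
    rw [rot_apply, ← mul_assoc, Unitary.mul_star_self_of_mem a.2, one_mul]
  have hXx : X x = (a : A) * rot a X (star (a : A) * x) := by
    rw [← hX', ← mul_assoc, Unitary.mul_star_self_of_mem a.2, one_mul]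
  have heq : z * (X ((a : A) * q.e i j * star (a : A) * x) -
      (a : A) * q.e i j * star (a : A) * X x) =
      z * (a : A) * (rot a X (q.e i j * (star (a : A) * x)) - S (q.e i j * (star (a : A) * x))) -
        z * (a : A) * q.e i j * (rot a X (star (a : A) * x) - S (star (a : A) * x)) := by
    have hsa : ∀ y, star (a : A) * ((a : A) * y) = y := fun y => by
      rw [← mul_assoc, Unitary.star_mul_self_of_mem a.2, one_mul]
    rw [mul_assoc ((a : A) * q.e i j), mul_assoc (a : A), hX', hXx, ht, hSm]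
    simp only [mul_sub, mul_assoc, hsa]
    abel
  show ‖τ (z * (X ((a : A) * q.e i j * star (a : A) * x) -
    (a : A) * q.e i j * star (a : A) * X x))‖ ≤ ε
  rw [heq, map_sub]
  refine (norm_sub_le _ _).trans ((add_le_add (hkey _ _ hza ?_) (hkey _ _ ?_ hax)).trans_eq ?_)
  · exact (norm_mul_le _ _).trans (mul_le_one₀ hq1 (norm_nonneg _) hax)
  · exact (norm_mul_le _ _).trans (mul_le_one₀ hza (norm_nonneg _) hq1)
  · rw [hηdef]; field_simp; ring

end Vale.Agent.P082.Full
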