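import Vale.Agent.P082.Full.Defs

/-!
P082: elementary facts about tracial functionals, rotations and matrix units.
-/

open Finset
open scoped ComplexConjugate

namespace Vale.Agent.P082.Full

variable {A : Type*} [CStarAlgebra A] {τ : A →ₗ[ℂ] ℂ}

@[simp] theorem mulL_apply (a x : A) : mulL a x = a * x := rfl

@[simp] theorem rot_apply (u : unitary A) (h : A →L[ℂ] A) (x : A) :
    rot u h x = star (u : A) * h ((u : A) * x) := rfl

theorem rot_rot (u v : unitary A) (h : A →L[ℂ] A) : rot v (rot u h) = rot (u * v) h := by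
  ext x; simp [mul_assoc]

theorem norm_rot_le (u : unitary A) (h : A →L[ℂ] A) : ‖rot u h‖ ≤ ‖h‖ := by
  refine ContinuousLinearMap.opNorm_le_bound _ (norm_nonneg h) fun x => ?_
  rw [rot_apply, ← Unitary.coe_star, CStarRing.norm_coe_unitary_mul]
  exact (h.le_opNorm _).trans (by rw [CStarRing.norm_coe_unitary_mul])

/-- The square of the trace norm of order two. -/
noncomputable def sqn (τ : A →ₗ[ℂ] ℂ) (a : A) : ℝ := (τ (star a * a)).re

namespace IsTr

variable (hτ : IsTr τ)
include hτ

theorem sqn_nonneg (a : A) : 0 ≤ sqn τ a := hτ.pos a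

theorem im_sq (a : A) : (τ (star a * a)).im = 0 := by
  have h := hτ.bound a 1
  rw [mul_one] at h
  rcases subsingleton_or_nontrivial A with hA | hA
  · simp [Subsingleton.elim (star a * a) 0]
  · rw [norm_one, one_mul] at h
    have h2 := Complex.sq_norm_sub_sq_re (τ (star a * a))
    have h3 := Complex.abs_re_le_norm (τ (star a * a))
    have : ‖τ (star a * a)‖ = (τ (star a * a)).re :=
      le_antisymm h ((le_abs_self _).trans h3)
    rw [this, sub_self] at h2
    exact pow_eq_zero_iff two_ne_zero |>.1 h2.symm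

theorem ofReal_sqn (a : A) : τ (star a * a) = (sqn τ a : ℂ) :=
  Complex.ext rfl (by simp [hτ.im_sq a])

theorem apply_star (a : A) : τ (star a) = conj (τ a) := by
  have h1 := hτ.im_sq (1 + a)
  have h2 := hτ.im_sq (1 + Complex.I • a)
  have h3 := hτ.im_sq a
  have h4 := hτ.im_sq 1
  simp only [star_one, mul_one] at h4
  simp only [star_add, star_one, star_smul, add_mul, mul_add, one_mul, mul_one, map_add,
    smul_mul_assoc, mul_smul_comm, map_smul, smul_eq_mul, Complex.star_def,
    Complex.conj_I, Complex.add_im, Complex.mul_im, Complex.mul_re, Complex.neg_re, Complex.neg_im,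
    Complex.I_re, Complex.I_im] at h1 h2
  apply Complex.ext <;> simp only [Complex.conj_re, Complex.conj_im] <;> linarith

theorem norm_le_sqrt (a b : A) : ‖τ (star a * b)‖ ≤ √(sqn τ a) * √(sqn τ b) := by
  let core : PreInnerProductSpace.Core ℂ A :=
    { inner := fun x y => τ (star x * y)
      conj_inner_symm := fun x y => by
        show conj (τ (star y * x)) = τ (star x * y)
        rw [← hτ.apply_star]; simp
      re_inner_nonneg := fun x => hτ.pos x
      add_left := fun x y w => by simp [add_mul]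
      smul_left := fun x y r => by simp }
  have key : ‖τ (star a * b)‖ * ‖τ (star b * a)‖ ≤ sqn τ a * sqn τ b :=
    InnerProductSpace.Core.inner_mul_inner_self_le (c := core) a b
  rw [← Real.sqrt_mul (hτ.sqn_nonneg a)]
  refine Real.le_sqrt_of_sq_le ?_
  have e : ‖τ (star b * a)‖ = ‖τ (star a * b)‖ := by
    rw [← Complex.norm_conj (τ (star a * b)), ← hτ.apply_star]; simp
  rw [e] at key
  rwa [sq]

theorem sqn_star (a : A) : sqn τ (star a) = sqn τ a := by
  rw [sqn, star_star, hτ.comm, sqn]

theorem sqn_mul_le (a b : A) : sqn τ (a * b) ≤ sqn τ a * ‖b‖ ^ 2 := by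
  rw [sqn, star_mul, mul_assoc, hτ.comm, mul_assoc, mul_assoc, ← mul_assoc (star a)]
  refine ((Complex.re_le_norm _).trans (hτ.bound a _)).trans_eq ?_
  rw [CStarRing.norm_self_mul_star, mul_comm, sqn, sq]

theorem sqn_mul_le' (a b : A) : sqn τ (a * b) ≤ ‖a‖ ^ 2 * sqn τ b := by
  rw [← hτ.sqn_star, star_mul, mul_comm, ← hτ.sqn_star b, ← norm_star a]
  exact hτ.sqn_mul_le _ _

theorem sqn_le (a : A) : sqn τ a ≤ ‖a‖ ^ 2 := by
  have h := hτ.sqn_mul_le' a 1
  rw [mul_one] at h
  refine h.trans (mul_le_of_le_one_right (sq_nonneg _) ?_)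
  rw [sqn, star_one, one_mul]
  exact hτ.le_one

theorem norm_apply_le (a : A) : ‖τ a‖ ≤ ‖a‖ := by
  have h := hτ.bound 1 a
  rw [star_one, one_mul, one_mul] at h
  exact h.trans (mul_le_of_le_one_right (norm_nonneg _) hτ.le_one)

end IsTr

namespace MU

variable {N : ℕ} (e : MU A N)

theorem sum_mul_sum (t t' : Fin N → Fin N → ℂ) :
    lin e t * lin e t' = lin e fun a b => ∑ c, t a c * t' c b := by
  calc lin e t * lin e t' = ∑ a, ∑ c, ∑ c', ∑ b, (t a c * t' c' b) •
      (if c = c' then e.e a b else 0) := by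
        simp only [lin]
        rw [Finset.sum_mul]
        refine Finset.sum_congr rfl fun a _ => ?_
        rw [Finset.sum_mul]
        refine Finset.sum_congr rfl fun c _ => ?_
        rw [Finset.mul_sum]
        refine Finset.sum_congr rfl fun c' _ => ?_
        rw [Finset.mul_sum]
        refine Finset.sum_congr rfl fun b _ => ?_
        rw [smul_mul_smul_comm, e.mul_e]
    _ = ∑ a, ∑ c, ∑ b, (t a c * t' c b) • e.e a b := by
        refine Finset.sum_congr rfl fun a _ => Finset.sum_congr rfl fun c _ => ?_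
        rw [Finset.sum_eq_single c (fun c' _ h => by simp [Ne.symm h]) (by simp)]
        simp
    _ = _ := by
        simp only [lin, Finset.sum_smul]
        exact Finset.sum_congr rfl fun a _ => Finset.sum_comm

theorem star_lin (t : Fin N → Fin N → ℂ) : star (lin e t) = lin e fun a b => conj (t b a) := by
  simp only [lin, star_sum, star_smul, e.star_e, Complex.star_def]
  exact Finset.sum_comm

theorem lin_one : lin e (fun a b => if a = b then 1 else 0) = (1 : A) := by
  simp [lin, e.sum_e]

theorem lin_mem_unitary {t : Fin N → Fin N → ℂ}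
    (h1 : ∀ a b, ∑ c, conj (t c a) * t c b = if a = b then 1 else 0)
    (h2 : ∀ a b, ∑ c, t a c * conj (t b c) = if a = b then 1 else 0) :
    lin e t ∈ unitary A := by
  refine Unitary.mem_iff.2 ⟨?_, ?_⟩
  · rw [star_lin, sum_mul_sum]; simp only [h1]; exact lin_one e
  · rw [star_lin, sum_mul_sum]; simp only [h2]; exact lin_one e

end MU

section Phases

theorem conj_ph_mul (k : Fin 4) : conj (ph k) * ph k = 1 := by
  fin_cases k <;> simp [ph, pow_succ]

theorem ph_mul_conj (k : Fin 4) : ph k * conj (ph k) = 1 := by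
  rw [mul_comm, conj_ph_mul]

theorem norm_ph (k : Fin 4) : ‖ph k‖ = 1 := by simp [ph]

theorem sum_ph : ∑ k, ph k = 0 := by
  simp [Fin.sum_univ_four, ph, pow_succ]

theorem sum_ph_sq : ∑ k, ph k ^ 2 = 0 := by
  simp [Fin.sum_univ_four, ph, pow_succ]

/-- Phases in distinct places are orthogonal. -/
theorem sum_conj_ph_mul {N : ℕ} (a b : Fin N) :
    ∑ ε : Fin N → Fin 4, conj (ph (ε a)) * ph (ε b) = if a = b then (4 : ℂ) ^ N else 0 := by
  split_ifs with h
  · subst h; simp [conj_ph_mul]
  · rw [← (Equiv.funSplitAt b (Fin 4)).symm.sum_comp, Fintype.sum_prod_type, Finset.sum_comm]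
    simp [h, ← Finset.mul_sum, sum_ph]

theorem pauli_cov {N : ℕ} [NeZero N] (a b c d : Fin N) :
    ∑ s : Fin N × (Fin N → Fin 4), conj (pauliC s a b) * pauliC s c d =
      if a = c ∧ b = d then (4 : ℂ) ^ N else 0 := by
  simp only [pauliC, apply_ite (starRingEnd ℂ), map_zero, Fintype.sum_prod_type, ite_mul, zero_mul,
    mul_ite, mul_zero]
  simp only [Finset.sum_ite_irrel, Finset.sum_const_zero, sum_conj_ph_mul]
  rw [Finset.sum_eq_single (a - b) (fun s _ hs => by
    have : a ≠ b + s := fun h => hs (by rw [h, add_sub_cancel_left])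
    simp [this]) (by simp)]
  by_cases hbd : b = d
  · subst hbd; simp [eq_comm]
  · simp [hbd]

theorem pauli_mem_unitary {N : ℕ} [NeZero N] (e : MU A N) (s : Fin N × (Fin N → Fin 4)) :
    lin e (pauliC s) ∈ unitary A := by
  refine e.lin_mem_unitary (fun a b => ?_) fun a b => ?_
  · rw [Finset.sum_eq_single (b + s.1) (fun c _ hc => by simp [pauliC, hc]) (by simp)]
    by_cases h : a = b
    · subst h; simp [pauliC, conj_ph_mul]
    · simp [pauliC, h, Ne.symm h]
  · rw [Finset.sum_eq_single (b - s.1) (fun c _ hc => by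
      have : b ≠ c + s.1 := fun h => hc (by rw [h, add_sub_cancel_right])
      simp [pauliC, this]) (by simp)]
    by_cases h : a = b
    · subst h; simp [pauliC, ph_mul_conj]
    · simp [pauliC, h]

end Phases

end Vale.Agent.P082.Full
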