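import Vale.Agent.P082.Full.Basic

/-!
P082: a rank one corner is small in the trace norm, and the partial trace is bounded on average.
-/

open Finset
open scoped ComplexConjugate

namespace Vale.Agent.P082.Full

variable {A : Type*} [CStarAlgebra A] {τ : A →ₗ[ℂ] ℂ} {N : ℕ}

theorem entry_comm (e : MU A N) (m : A) (q p a b : Fin N) :
    e.e a b * entry e m q p = entry e m q p * e.e a b := by
  have h1 : e.e a b * entry e m q p = e.e a q * m * e.e p b := by
    rw [entry, mul_sum, sum_eq_single b (fun s _ hs => by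
      rw [← mul_assoc, ← mul_assoc, e.mul_e, if_neg (Ne.symm hs), zero_mul, zero_mul]) (by simp),
      ← mul_assoc, ← mul_assoc, e.mul_e, if_pos rfl]
  have h2 : entry e m q p * e.e a b = e.e a q * m * e.e p b := by
    rw [entry, sum_mul, sum_eq_single a (fun s _ hs => by
      rw [mul_assoc, e.mul_e, if_neg hs, mul_zero]) (by simp),
      mul_assoc, e.mul_e, if_pos rfl]
  rw [h1, h2]

theorem MU.mul_self (e : MU A N) (a : Fin N) : e.e a a * e.e a a = e.e a a := by
  rw [e.mul_e, if_pos rfl]

theorem MU.norm_diag_le (e : MU A N) (a : Fin N) : ‖e.e a a‖ ≤ 1 := by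
  have h := CStarRing.norm_star_mul_self (x := e.e a a)
  rw [e.star_e, e.mul_self] at h
  nlinarith [norm_nonneg (e.e a a)]

theorem IsTr.sqn_diag (hτ : IsTr τ) (e : MU A N) (a : Fin N) {S : A}
    (hS : ∀ a b, e.e a b * S = S * e.e a b) : (N : ℂ) * τ (e.e a a * S) = τ S := by
  have h : ∀ b, τ (e.e b b * S) = τ (e.e a a * S) := fun b => by
    have e1 : e.e b b = e.e b a * e.e a b := by rw [e.mul_e, if_pos rfl]
    rw [e1, mul_assoc, hτ.comm, hS, mul_assoc, e.mul_e, if_pos rfl, ← hS]
  calc (N : ℂ) * τ (e.e a a * S) = ∑ b, τ (e.e b b * S) := by simp [h]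
    _ = τ S := by rw [← map_sum, ← sum_mul, e.sum_e, one_mul]

/-- The column with coefficients `u` in place `o`. -/
noncomputable def col (e : MU A N) (o : Fin N) (u : Fin N → ℂ) : A :=
  lin e fun a b => if b = o then u a else 0

theorem col_mul_diag (e : MU A N) (o : Fin N) (u : Fin N → ℂ) : col e o u * e.e o o = col e o u := by
  simp only [col, lin, sum_mul, smul_mul_assoc, e.mul_e]
  refine sum_congr rfl fun a _ => sum_congr rfl fun b _ => ?_
  by_cases h : b = o <;> simp [h]

theorem norm_col_le (e : MU A N) (o : Fin N) {u : Fin N → ℂ} (hu : ∑ a, ‖u a‖ ^ 2 ≤ 1) :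
    ‖col e o u‖ ≤ 1 := by
  have h : star (col e o u) * col e o u = (((∑ a, ‖u a‖ ^ 2 : ℝ)) : ℂ) • e.e o o := by
    rw [col, e.star_lin, e.sum_mul_sum]
    simp only [lin, apply_ite (starRingEnd ℂ), map_zero, ite_mul, zero_mul, mul_ite, mul_zero]
    rw [sum_eq_single o (fun a _ ha => by simp [ha]) (by simp),
      sum_eq_single o (fun b _ hb => by simp [hb]) (by simp)]
    simp [← Complex.normSq_eq_norm_sq, Complex.normSq_eq_conj_mul_self]
  have h2 := CStarRing.norm_star_mul_self (x := col e o u)
  rw [h, norm_smul, Complex.norm_real, Real.norm_eq_abs,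
    abs_of_nonneg (sum_nonneg fun a _ => sq_nonneg _)] at h2
  nlinarith [norm_nonneg (col e o u), mul_le_one₀ hu (norm_nonneg _) (e.norm_diag_le o)]

theorem lin_comm (e : MU A N) {T : A} (hT : ∀ a b, e.e a b * T = T * e.e a b)
    (t : Fin N → Fin N → ℂ) : lin e t * T = T * lin e t := by
  simp only [lin, sum_mul, mul_sum, smul_mul_assoc, mul_smul_comm, hT]

theorem comm_star (e : MU A N) {T : A} (hT : ∀ a b, e.e a b * T = T * e.e a b) (a b : Fin N) :
    e.e a b * star T = star T * e.e a b := by
  simpa [star_mul, e.star_e] using (congrArg star (hT b a)).symm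

theorem corner_le (e : MU A N) (hτ : IsTr τ) {T : A} (hT : ∀ a b, e.e a b * T = T * e.e a b)
    {u w : Fin N → ℂ} (hu : ∑ a, ‖u a‖ ^ 2 ≤ 1) (hw : ∑ a, ‖w a‖ ^ 2 ≤ 1) (k : A) :
    ‖τ (star (lin e (fun a b => u a * conj (w b)) * T) * k)‖ ≤ √(sqn τ T) * ‖k‖ / N := by
  rcases N.eq_zero_or_pos with hN | hN
  · subst hN
    simp [lin]
  let o : Fin N := ⟨0, hN⟩
  set U := col e o u with hU
  set W := col e o w with hW
  have hl : star (lin e (fun a b => u a * conj (w b))) = W * star U := by
    simp only [hU, hW, col, e.star_lin, e.sum_mul_sum, apply_ite (starRingEnd ℂ), map_zero,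
      map_mul, Complex.conj_conj, ite_mul, zero_mul, mul_ite, mul_zero]
    congr 1; funext a b
    rw [sum_eq_single o (fun c _ hc => by simp [hc]) (by simp)]
    simp [mul_comm]
  set Y := star U * k * W with hY
  have hTs : ∀ t, lin e t * star T = star T * lin e t := fun t => lin_comm e (comm_star e hT) t
  have key : τ (star (lin e (fun a b => u a * conj (w b)) * T) * k) =
      τ (star (T * e.e o o) * (Y * e.e o o)) := by
    have e1 : star (T * e.e o o) * (Y * e.e o o) = e.e o o * (star T * (star U * (k * W))) := by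
      rw [star_mul, e.star_e, hY]
      simp only [mul_assoc]
      rw [hW, col_mul_diag]
    rw [e1, star_mul, hl]
    have e2 : star T * (W * star U) * k = W * (e.e o o * (star T * (star U * k))) := by
      have hWT : W * star T = star T * W := hTs _
      rw [← mul_assoc (star T), ← hWT, ← mul_assoc W (e.e o o), hW, col_mul_diag]
      simp only [mul_assoc]
    rw [e2, hτ.comm]
    simp only [mul_assoc]
  have hs : sqn τ (T * e.e o o) = sqn τ T / N := by
    have hTT : ∀ a b, e.e a b * (star T * T) = star T * T * e.e a b := fun a b => by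
      rw [← mul_assoc, comm_star e hT, mul_assoc, hT, mul_assoc]
    have h := congrArg Complex.re (hτ.sqn_diag e o hTT)
    rw [show (N : ℂ) = ((N : ℝ) : ℂ) by norm_num, Complex.re_ofReal_mul] at h
    have : sqn τ (T * e.e o o) = (τ (e.e o o * (star T * T))).re := by
      rw [sqn, star_mul, e.star_e, mul_assoc, hτ.comm, mul_assoc, mul_assoc, e.mul_self,
        ← mul_assoc, hτ.comm]
    rw [this, sqn, ← h]
    field_simp
  have ho : sqn τ (e.e o o) ≤ 1 / N := by
    have h := congrArg Complex.re (hτ.sqn_diag e o (S := 1) (by simp))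
    rw [show (N : ℂ) = ((N : ℝ) : ℂ) by norm_num, Complex.re_ofReal_mul, mul_one] at h
    rw [sqn, e.star_e, e.mul_self, le_div_iff₀ (by positivity), mul_comm, h]
    exact hτ.le_one
  have hYn : ‖Y‖ ≤ ‖k‖ := by
    refine (norm_mul₃_le ..).trans ?_
    rw [norm_star]
    calc _ ≤ 1 * ‖k‖ * 1 := by gcongr <;> exact norm_col_le e o ‹_›
      _ = _ := by ring
  rw [key]
  refine (hτ.norm_le_sqrt _ _).trans ?_
  have hy : √(sqn τ (Y * e.e o o)) ≤ ‖k‖ * (√N)⁻¹ := by
    refine Real.sqrt_le_iff.2 ⟨by positivity, (hτ.sqn_mul_le' _ _).trans ?_⟩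
    rw [mul_pow, inv_pow, Real.sq_sqrt (Nat.cast_nonneg N), ← one_div]
    exact mul_le_mul (pow_le_pow_left₀ (norm_nonneg _) hYn 2) ho (hτ.sqn_nonneg _) (sq_nonneg _)
  rw [hs, Real.sqrt_div' _ (Nat.cast_nonneg N)]
  refine (mul_le_mul_of_nonneg_left hy (by positivity)).trans_eq ?_
  field_simp
  rw [Real.sq_sqrt (Nat.cast_nonneg N)]
  ring

theorem sum_sqn_ptr [NeZero N] (e : MU A N) (hτ : IsTr τ) {m : A} (hm : ‖m‖ ≤ 1) :
    ∑ s : Fin N × (Fin N → Fin 4), sqn τ (∑ a, ∑ b, pauliC s a b • entry e m b a) ≤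
      (4 : ℝ) ^ N * N := by
  have hee : ∀ q p, τ (star (entry e m q p) * entry e m q p) =
      (N : ℂ) * τ (e.e p p * (star m * e.e q q * m)) := fun q p => by
    have h1 : star (entry e m q p) * entry e m q p =
        ∑ s, e.e s p * (star m * e.e q q * m) * e.e p s := by
      simp only [entry, star_sum, star_mul, e.star_e, sum_mul, mul_sum]
      refine sum_congr rfl fun s _ => ?_
      rw [sum_eq_single s]
      · simp only [mul_assoc]
        rw [← mul_assoc (e.e q s) (e.e s q), e.mul_e, if_pos rfl]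
      · intro t _ ht
        have : e.e q t * e.e s q = 0 := by rw [e.mul_e, if_neg ht]
        simp only [mul_assoc]
        rw [← mul_assoc (e.e q t) (e.e s q), this]
        simp
      · simp
    have h2 : ∀ s, τ (e.e s p * (star m * e.e q q * m) * e.e p s) =
        τ (e.e p p * (star m * e.e q q * m)) := fun s => by
      rw [hτ.comm, ← mul_assoc, e.mul_e, if_pos rfl]
    rw [h1, map_sum]
    simp [h2]
  have key : ∑ s : Fin N × (Fin N → Fin 4),
      τ (star (∑ a, ∑ b, pauliC s a b • entry e m b a) * ∑ a, ∑ b, pauliC s a b • entry e m b a) =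
      (4 : ℂ) ^ N * (N * τ (star m * m)) := by
    have hsum : ∀ (s : Fin N × (Fin N → Fin 4)),
        star (∑ a, ∑ b, pauliC s a b • entry e m b a) * (∑ a, ∑ b, pauliC s a b • entry e m b a) =
        ∑ i : Fin N × Fin N, ∑ j : Fin N × Fin N, (conj (pauliC s i.1 i.2) * pauliC s j.1 j.2) •
          (star (entry e m i.2 i.1) * entry e m j.2 j.1) := fun s => by
      simp only [← Fintype.sum_prod_type (f := fun i : Fin N × Fin N => pauliC s i.1 i.2 •
        entry e m i.2 i.1), star_sum, star_smul, sum_mul, mul_sum, smul_mul_assoc, mul_smul_comm,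
        Complex.star_def]
      simp only [smul_sum, smul_smul]
      rw [sum_comm]
      simp only [mul_comm (pauliC s _ _)]
    calc _ = ∑ i : Fin N × Fin N, ∑ j : Fin N × Fin N,
          (∑ s : Fin N × (Fin N → Fin 4), conj (pauliC s i.1 i.2) * pauliC s j.1 j.2) *
            τ (star (entry e m i.2 i.1) * entry e m j.2 j.1) := by
          simp only [hsum, map_sum, map_smul, smul_eq_mul]
          rw [sum_comm]
          refine sum_congr rfl fun i _ => ?_
          rw [sum_comm]
          simp only [sum_mul]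
      _ = ∑ i : Fin N × Fin N, (4 : ℂ) ^ N * τ (star (entry e m i.2 i.1) * entry e m i.2 i.1) := by
          refine sum_congr rfl fun i _ => ?_
          simp only [pauli_cov, ← Prod.ext_iff, ite_mul, zero_mul, sum_ite_eq, mem_univ, if_true]
      _ = _ := by
          simp only [hee, ← mul_sum, Fintype.sum_prod_type]
          rw [sum_comm]
          simp only [← map_sum, ← sum_mul, ← mul_sum, e.sum_e, one_mul, mul_one]
  have h := congrArg Complex.re key
  rw [show (4 : ℂ) ^ N = (((4 : ℝ) ^ N : ℝ) : ℂ) by norm_num, Complex.re_ofReal_mul,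
    show (N : ℂ) = ((N : ℝ) : ℂ) by norm_num, Complex.re_ofReal_mul, Complex.re_sum] at h
  refine h.trans_le (mul_le_mul_of_nonneg_left (mul_le_of_le_one_right (Nat.cast_nonneg N) ?_)
    (by positivity))
  exact (hτ.sqn_le m).trans (pow_le_one₀ (norm_nonneg m) hm)

end Vale.Agent.P082.Full
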