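import Vale.Agent.P082.Full.Basic

/-!
P082: fourth moments and truncation of the random element of the commutant.
-/

open Finset
open scoped ComplexConjugate

namespace Vale.Agent.P082.Full

variable {A : Type*} [CStarAlgebra A] {N : ℕ}

namespace Moment

section Phases

theorem ph_succ (k : Fin 4) : ph (k + 1) = Complex.I * ph k := by
  fin_cases k <;> simp [ph, pow_succ]

/-- Adding one to the letter at `r`. -/
def turn (r : Fin N) : (Fin N → Fin 4) ≃ (Fin N → Fin 4) :=
  Equiv.piCongrRight fun p => Equiv.addRight (if p = r then 1 else 0)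

theorem ph_turn (r p : Fin N) (ω : Fin N → Fin 4) :
    ph (turn r ω p) = (if p = r then Complex.I else 1) * ph (ω p) := by
  by_cases h : p = r <;> simp [turn, h, ph_succ]

theorem sum_eq_zero_of_turn {f : (Fin N → Fin 4) → ℂ} (r : Fin N) {κ : ℂ} (hκ : κ ≠ 1)
    (h : ∀ ω, f (turn r ω) = κ * f ω) : ∑ ω, f ω = 0 := by
  have e : ∑ ω, f ω = κ * ∑ ω, f ω := by
    rw [Finset.mul_sum, ← (turn r).sum_comp]
    exact Finset.sum_congr rfl fun ω _ => h ω
  have e' : (1 - κ) * ∑ ω, f ω = 0 := by rw [sub_mul, one_mul, ← e, sub_self]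
  exact (mul_eq_zero.1 e').resolve_left (sub_ne_zero.2 (Ne.symm hκ))

/-- The fourth moment of independent phases. -/
theorem moment_four (p q a b : Fin N) :
    ∑ ω : Fin N → Fin 4, ph (ω p) * conj (ph (ω q)) * conj (ph (ω a)) * ph (ω b) =
      (4 : ℂ) ^ N * ((if p = a ∧ q = b then 1 else 0) +
        (if p = q ∧ a = b then 1 else 0) - (if p = q ∧ a = b ∧ p = a then 1 else 0)) := by
  have hI : Complex.I ≠ 1 := by simp [Complex.ext_iff]
  have hone : (∀ ω : Fin N → Fin 4,
      ph (ω p) * conj (ph (ω q)) * conj (ph (ω a)) * ph (ω b) = 1) →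
      ∑ ω : Fin N → Fin 4, ph (ω p) * conj (ph (ω q)) * conj (ph (ω a)) * ph (ω b) =
        (4 : ℂ) ^ N := fun hc => by
    simp [hc]
  by_cases h1 : p = q
  · subst h1
    by_cases h2 : a = b
    · subst h2
      rw [hone fun ω => by
        rw [ph_mul_conj, one_mul, conj_ph_mul]]
      by_cases h3 : p = a <;> simp [h3]
    · rw [sum_eq_zero_of_turn b hI fun ω => ?_]
      · by_cases h3 : p = a <;> simp [h2, h3]
      · simp only [ph_turn, if_neg h2, if_true, one_mul, map_mul]
        by_cases h4 : p = b
        · simp only [h4, if_true, Complex.conj_I]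
          linear_combination -(Complex.I * ph (ω b) * conj (ph (ω b)) * conj (ph (ω a)) *
            ph (ω b)) * Complex.I_mul_I
        · simp [h4]
          ring
  · by_cases h2 : p = a
    · subst h2
      by_cases h3 : q = b
      · subst h3
        rw [hone fun ω => by
          calc ph (ω p) * conj (ph (ω q)) * conj (ph (ω p)) * ph (ω q)
              = (ph (ω p) * conj (ph (ω p))) * (conj (ph (ω q)) * ph (ω q)) := by ring
            _ = 1 := by rw [ph_mul_conj, conj_ph_mul, one_mul]]
        simp [h1]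
      · rw [sum_eq_zero_of_turn b hI fun ω => ?_]
        · simp [h1, h3]
        · simp only [ph_turn, if_neg h3, if_true, one_mul, map_mul]
          by_cases h4 : p = b
          · simp only [h4, if_true, Complex.conj_I]
            linear_combination -(Complex.I * ph (ω b) * conj (ph (ω q)) * conj (ph (ω b)) *
              ph (ω b)) * Complex.I_mul_I
          · simp [h4]
            ring
    · rw [sum_eq_zero_of_turn p (κ := Complex.I * if b = p then Complex.I else 1) ?_ fun ω => ?_]
      · simp [h1, h2]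
      · by_cases h4 : b = p <;> (simp [h4, Complex.ext_iff]; try norm_num)
      · simp only [ph_turn, if_neg (Ne.symm h1), if_neg (Ne.symm h2), if_true, one_mul]
        ring

/-- The pairings in the fourth moment, for coefficients in a vector space. -/
theorem sum_four (f : Fin N → Fin N → Fin N → Fin N → A) :
    ∑ ω : Fin N → Fin 4, (∑ p, ∑ q, ∑ a, ∑ b,
        (ph (ω p) * conj (ph (ω q)) * conj (ph (ω a)) * ph (ω b)) • f p q a b) +
        4 ^ N • ∑ p, f p p p p =
      4 ^ N • ((∑ p, ∑ q, f p q p q) + ∑ p, ∑ a, f p p a a) := by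
  have e : ∑ ω : Fin N → Fin 4, (∑ p, ∑ q, ∑ a, ∑ b,
      (ph (ω p) * conj (ph (ω q)) * conj (ph (ω a)) * ph (ω b)) • f p q a b) =
      ∑ p, ∑ q, ∑ a, ∑ b, ((4 : ℂ) ^ N * ((if p = a ∧ q = b then 1 else 0) +
        (if p = q ∧ a = b then 1 else 0) - (if p = q ∧ a = b ∧ p = a then 1 else 0))) •
          f p q a b := by
    rw [Finset.sum_comm]
    refine sum_congr rfl fun p _ => ?_
    rw [Finset.sum_comm]
    refine sum_congr rfl fun q _ => ?_
    rw [Finset.sum_comm]
    refine sum_congr rfl fun a _ => ?_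
    rw [Finset.sum_comm]
    refine sum_congr rfl fun b _ => ?_
    rw [← Finset.sum_smul, moment_four]
  rw [e]
  simp only [mul_smul, ← Finset.smul_sum, ← Nat.cast_smul_eq_nsmul ℂ, Nat.cast_pow, Nat.cast_ofNat,
    ← smul_add]
  congr 1
  simp only [sub_smul, add_smul, ite_smul, one_smul, zero_smul, ite_and, Finset.sum_sub_distrib,
    Finset.sum_add_distrib, Finset.sum_ite_eq, Finset.sum_ite_irrel, Finset.sum_const_zero,
    Finset.mem_univ, if_true, sub_add_cancel]

end Phases

section Entries

variable (e : MU A N) (m m' : A)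

theorem star_entry (q p : Fin N) : star (entry e m q p) = entry e (star m) p q := by
  simp [entry, star_sum, e.star_e, mul_assoc]

theorem entry_mul (q p q' p' : Fin N) :
    entry e m q p * entry e m' q' p' = entry e (m * e.e p q' * m') q p' := by
  simp only [entry]
  rw [Finset.sum_mul_sum]
  refine sum_congr rfl fun s _ => ?_
  rw [Finset.sum_eq_single s (fun t _ ht => ?_) (by simp)]
  · calc e.e s q * m * e.e p s * (e.e s q' * m' * e.e p' s)
        = e.e s q * (m * (e.e p s * e.e s q') * m') * e.e p' s := by simp only [mul_assoc]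
      _ = _ := by rw [e.mul_e, if_pos rfl]
  · calc e.e s q * m * e.e p s * (e.e t q' * m' * e.e p' t)
        = e.e s q * (m * (e.e p s * e.e t q') * m') * e.e p' t := by simp only [mul_assoc]
      _ = 0 := by rw [e.mul_e, if_neg (Ne.symm ht)]; simp

theorem entry_one (q p : Fin N) : entry e 1 q p = if q = p then 1 else 0 := by
  split_ifs with h
  · subst h; simp [entry, e.mul_e, e.sum_e]
  · simp [entry, e.mul_e, h]

theorem sum_entry {ι : Type*} (s : Finset ι) (f : ι → A) (q p : Fin N) :
    entry e (∑ i ∈ s, f i) q p = ∑ i ∈ s, entry e (f i) q p := by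
  simp only [entry, Finset.mul_sum, Finset.sum_mul]
  exact Finset.sum_comm

variable {m}

/-- The entries of an isometry have orthonormal columns. -/
theorem sum_cols (hm : star m * m = 1) (p p' : Fin N) :
    ∑ q, star (entry e m q p) * entry e m q p' = if p = p' then 1 else 0 := by
  simp only [star_entry, entry_mul, ← sum_entry, ← Finset.sum_mul, ← Finset.mul_sum, e.sum_e,
    mul_one, hm, entry_one]

/-- The entries of a coisometry have orthonormal rows. -/
theorem sum_rows (hm : m * star m = 1) (q q' : Fin N) :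
    ∑ p, entry e m q p * star (entry e m q' p) = if q = q' then 1 else 0 := by
  simp only [star_entry, entry_mul, ← sum_entry, ← Finset.sum_mul, ← Finset.mul_sum, e.sum_e,
    mul_one, hm, entry_one]

theorem sum_entry_mul_star (m : A) (a c : Fin N) :
    ∑ q, entry e m q a * star (entry e m q c) = ptr e (m * e.e a c * star m) := by
  simp only [star_entry, entry_mul]
  exact Finset.sum_comm

theorem star_gam (m : A) (w u : Fin N → Fin 4) :
    star (gam e m w u) = gam e (star m) u w := by
  simp only [gam, star_smul, star_sum, star_entry, star_mul', Complex.star_def, Complex.conj_conj,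
    map_inv₀, Complex.conj_ofReal]
  rw [Finset.sum_comm]
  exact congrArg _ (sum_congr rfl fun q _ => sum_congr rfl fun p _ => by rw [mul_comm])

end Entries

theorem norm_one_le : ‖(1 : A)‖ ≤ 1 := by
  rcases subsingleton_or_nontrivial A with hA | hA
  · simp [Subsingleton.elim (1 : A) 0]
  · exact norm_one.le

variable [PartialOrder A] [StarOrderedRing A]

theorem sum_mul_star_sum_le (z : Fin N → A) :
    N • ((∑ i, z i) * star (∑ i, z i)) ≤ (N * N) • ∑ i, z i * star (z i) := by
  set S := ∑ i, z i with hS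
  have h : 0 ≤ ∑ i, (N • z i - S) * star (N • z i - S) :=
    sum_nonneg fun i _ => mul_star_self_nonneg _
  have e : ∑ i, (N • z i - S) * star (N • z i - S) =
      (N * N) • (∑ i, z i * star (z i)) - N • (S * star S) := by
    simp only [star_sub, star_nsmul, sub_mul, mul_sub, smul_mul_assoc, mul_smul_comm, smul_sub, smul_smul,
      Finset.sum_sub_distrib, ← Finset.smul_sum, ← Finset.mul_sum, ← Finset.sum_mul, ← star_sum,
      Finset.sum_const, Finset.card_univ, Fintype.card_fin, ← hS]
    abel
  rwa [e, sub_nonneg] at h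

section Main

variable [NeZero N] (e : MU A N) {m : A}

/-- The crossed pairing, bounded by Cauchy's inequality and the spreading. -/
theorem norm_crossed_le (hm : star m * m = 1) {δ : ℝ} (hδ : 0 ≤ δ)
    (hs : ∀ p, ‖ptr e (m * e.e p p * star m)‖ ≤ δ * N) :
    ‖∑ p, ∑ q, (∑ a, star (entry e m p a) * entry e m q a) *
        star (∑ a, star (entry e m p a) * entry e m q a)‖ ≤ δ * (N : ℝ) ^ 3 := by
  set E := entry e m
  set T := ∑ p, ∑ q, (∑ a, star (E p a) * E q a) * star (∑ a, star (E p a) * E q a) with hT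
  have hT0 : 0 ≤ T := sum_nonneg fun p _ => sum_nonneg fun q _ => mul_star_self_nonneg _
  set U := ∑ p, ∑ a, star (E p a) * (∑ q, E q a * star (E q a)) * E p a with hU
  have h1 : N • T ≤ (N * N) • U := by
    have e1 : U = ∑ p, ∑ q, ∑ a, star (E p a) * E q a * star (star (E p a) * E q a) := by
      rw [hU]
      refine sum_congr rfl fun p _ => ?_
      rw [Finset.sum_comm]
      simp only [Finset.mul_sum, Finset.sum_mul, star_mul, star_star, mul_assoc]
    rw [hT, e1]
    simp only [Finset.smul_sum (γ := Fin N)]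
    exact sum_le_sum fun p _ => sum_le_sum fun q _ =>
      (sum_mul_star_sum_le _).trans_eq Finset.smul_sum
  have h2 : U ≤ (δ * N) • (N • (1 : A)) := by
    have e2 : ∑ p : Fin N, ∑ a, star (E p a) * E p a = N • (1 : A) := by
      rw [Finset.sum_comm]
      simp [E, sum_cols e hm]
    rw [← e2, hU, Finset.smul_sum]
    refine sum_le_sum fun p _ => ?_
    rw [Finset.smul_sum]
    refine sum_le_sum fun a _ => ?_
    refine (CStarAlgebra.star_left_conjugate_le_norm_smul ?_).trans
      (smul_le_smul_of_nonneg_right ?_ (star_mul_self_nonneg _))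
    · exact isSelfAdjoint_sum _ fun q _ => IsSelfAdjoint.mul_star_self _
    · rw [sum_entry_mul_star]; exact hs a
  have hU0 : 0 ≤ U := sum_nonneg fun p _ => sum_nonneg fun a _ =>
    star_left_conjugate_nonneg (sum_nonneg fun q _ => mul_star_self_nonneg _) _
  have h3 : ‖U‖ ≤ δ * N * N := by
    refine (CStarAlgebra.norm_le_norm_of_nonneg_of_le hU0 h2).trans ?_
    rw [norm_smul, Real.norm_of_nonneg (by positivity)]
    exact mul_le_mul_of_nonneg_left ((norm_nsmul_le).trans
      (mul_le_of_le_one_right (by positivity) norm_one_le)) (by positivity)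
  have h4 := (CStarAlgebra.norm_le_norm_of_nonneg_of_le (nsmul_nonneg hT0 N) h1).trans norm_nsmul_le
  rw [← Nat.cast_smul_eq_nsmul ℝ, norm_smul, Real.norm_natCast, Nat.cast_mul] at h4
  have hN : (0 : ℝ) < N := Nat.cast_pos.2 (Nat.pos_of_neZero N)
  nlinarith [mul_le_mul_of_nonneg_left h3 (by positivity : (0 : ℝ) ≤ (N : ℝ) * N)]

/-- The fourth moment of the random element. -/
theorem norm_moment_le (hm : m ∈ unitary A) {δ : ℝ} (hδ : 0 ≤ δ)
    (hs : ∀ p, ‖ptr e (m * e.e p p * star m)‖ ≤ δ * N) :
    ‖∑ i : (Fin N → Fin 4) × (Fin N → Fin 4),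
        (star (gam e m i.1 i.2) * gam e m i.1 i.2) * (star (gam e m i.1 i.2) * gam e m i.1 i.2)‖ ≤
      (16 : ℝ) ^ N * (2 + δ * N) := by
  obtain ⟨hm1, hm2⟩ := Unitary.mem_iff.1 hm
  set E := entry e m
  set X : (Fin N → Fin 4) → Fin N → A := fun u q => ∑ p, ph (u p) • E q p with hX
  set S : (Fin N → Fin 4) → (Fin N → Fin 4) → A := fun w u =>
    ∑ p, ∑ q, (ph (w p) * conj (ph (w q))) • (star (X u p) * X u q) with hS
  have hγ : ∀ w u, star (gam e m w u) * gam e m w u = (N : ℂ)⁻¹ • S w u := fun w u => by
    have e1 : gam e m w u = ((Real.sqrt N : ℝ) : ℂ)⁻¹ • ∑ q, conj (ph (w q)) • X u q := by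
      simp only [gam, hX, E, Finset.smul_sum, smul_smul]
    have e2 : ((Real.sqrt N : ℝ) : ℂ)⁻¹ * ((Real.sqrt N : ℝ) : ℂ)⁻¹ = (N : ℂ)⁻¹ := by
      rw [← mul_inv, ← Complex.ofReal_mul, Real.mul_self_sqrt (Nat.cast_nonneg _),
        Complex.ofReal_natCast]
    rw [e1, star_smul, smul_mul_smul_comm, Complex.star_def, map_inv₀, Complex.conj_ofReal, e2]
    simp only [hS, star_sum, star_smul, Finset.sum_mul, Finset.mul_sum, smul_mul_assoc,
      mul_smul_comm, Finset.smul_sum, Complex.star_def, Complex.conj_conj, smul_smul]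
    rw [Finset.sum_comm]
    refine sum_congr rfl fun p _ => sum_congr rfl fun q _ => ?_
    congr 1
    ring
  -- columns
  have hcol : ∀ u, ∑ p, star (X u p) * X u p = N • (1 : A) := fun u => by
    simp only [hX, star_sum, star_smul, Finset.sum_mul, Finset.mul_sum, smul_mul_assoc,
      mul_smul_comm, Finset.smul_sum, smul_smul, Complex.star_def]
    rw [Finset.sum_comm, Finset.sum_congr rfl fun a _ => Finset.sum_comm]
    simp [E, ← Finset.smul_sum, sum_cols e hm1, ph_mul_conj]
  -- average over the first vector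
  set Ta : (Fin N → Fin 4) → A := fun u =>
    ∑ p, ∑ q, star (X u p) * X u q * (star (X u q) * X u p) with hTa
  have h1 : ∀ u, ∑ w, S w u * S w u ≤ 4 ^ N • (Ta u + (N * N) • (1 : A)) := fun u => by
    let f : Fin N → Fin N → Fin N → Fin N → A := fun p q a b =>
      star (X u p) * X u q * (star (X u b) * X u a)
    have e1 : ∀ w, S w u * S w u = ∑ p, ∑ q, ∑ a, ∑ b,
        (ph (w p) * conj (ph (w q)) * conj (ph (w a)) * ph (w b)) • f p q a b := fun w => by
      simp only [hS, f]
      simp only [Finset.sum_mul]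
      refine sum_congr rfl fun p _ => sum_congr rfl fun q _ => ?_
      simp only [Finset.mul_sum]
      rw [Finset.sum_comm]
      refine sum_congr rfl fun a _ => sum_congr rfl fun b _ => ?_
      rw [smul_mul_smul_comm]
      congr 1
      ring
    have e2 : ∑ p, ∑ a, f p p a a = (N * N) • (1 : A) := by
      simp only [f, ← Finset.mul_sum, ← Finset.sum_mul, hcol, smul_mul_smul_comm, one_mul]
    rw [Finset.sum_congr rfl fun w _ => e1 w, ← e2]
    refine (le_add_of_nonneg_right (nsmul_nonneg (sum_nonneg fun p _ => ?_) _)).trans_eq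
      (sum_four f)
    have : f p p p p = star (star (X u p) * X u p) * (star (X u p) * X u p) := by
      simp [f, star_mul, mul_assoc]
    rw [this]
    exact star_mul_self_nonneg _
  -- average over the second vector
  set T := ∑ p, ∑ q, (∑ a, star (E p a) * E q a) * star (∑ a, star (E p a) * E q a) with hT
  have h2 : ∑ u, Ta u ≤ 4 ^ N • (T + (N * N) • (1 : A)) := by
    let f : Fin N → Fin N → Fin N → Fin N → A := fun b c a d =>
      ∑ p, ∑ q, star (E p a) * E q b * (star (E q c) * E p d)
    have e1 : ∀ u, Ta u = ∑ b, ∑ c, ∑ a, ∑ d,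
        (ph (u b) * conj (ph (u c)) * conj (ph (u a)) * ph (u d)) • f b c a d := fun u => by
      simp only [hTa, hX, f, star_sum, star_smul, Finset.sum_mul, Finset.mul_sum, smul_mul_assoc,
        mul_smul_comm, smul_smul, Finset.smul_sum, Complex.star_def]
      simp only [← Fintype.sum_prod_type']
      refine Fintype.sum_equiv
        ⟨fun ((p, q, d, c, b, a) : Fin N × Fin N × Fin N × Fin N × Fin N × Fin N) =>
            (b, c, a, d, p, q),
          fun (b, c, a, d, p, q) => (p, q, d, c, b, a),
          fun _ => rfl, fun _ => rfl⟩ _ _ fun i => ?_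
      dsimp only [Equiv.coe_fn_mk]
      congr 1
      ring
    have e2 : ∑ b, ∑ c, f b c b c = T := by
      simp only [f, hT, star_sum, star_mul, star_star]
      rw [Finset.sum_congr rfl fun b _ => Finset.sum_comm, Finset.sum_comm]
      refine sum_congr rfl fun p _ => ?_
      rw [Finset.sum_congr rfl fun b _ => Finset.sum_comm, Finset.sum_comm]
      refine sum_congr rfl fun q _ => ?_
      rw [Finset.sum_mul_sum]
    have e3 : ∑ b, ∑ a, f b b a a = (N * N) • (1 : A) := by
      have e4 : ∑ q, ∑ b, E q b * star (E q b) = N • (1 : A) := by simp [E, sum_rows e hm2]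
      simp only [f]
      rw [Finset.sum_comm, Finset.sum_congr rfl fun a _ => Finset.sum_comm, Finset.sum_comm,
        Finset.sum_congr rfl fun p _ => Finset.sum_congr rfl fun a _ => Finset.sum_comm]
      simp only [mul_assoc, ← Finset.mul_sum]
      simp only [← mul_assoc (E _ _), ← Finset.sum_mul, e4, smul_mul_assoc, one_mul, mul_smul_comm,
        ← Finset.smul_sum]
      rw [Finset.sum_comm]
      simp [E, sum_cols e hm1]
    rw [Finset.sum_congr rfl fun u _ => e1 u, ← e2, ← e3]
    refine (le_add_of_nonneg_right (nsmul_nonneg (sum_nonneg fun a _ => sum_nonneg fun p _ =>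
      sum_nonneg fun q _ => ?_) _)).trans_eq (sum_four f)
    have : star (E p a) * E q a * (star (E q a) * E p a) =
        star (star (E q a) * E p a) * (star (E q a) * E p a) := by
      simp [star_mul, mul_assoc]
    rw [this]
    exact star_mul_self_nonneg _
  -- conclusion
  set W := ∑ i : (Fin N → Fin 4) × (Fin N → Fin 4), S i.1 i.2 * S i.1 i.2 with hW
  have hW1 : W ≤ 4 ^ N • (4 ^ N • (T + (N * N) • (1 : A)) + 4 ^ N • (N * N) • (1 : A)) := by
    rw [hW, Fintype.sum_prod_type, Finset.sum_comm]
    refine (sum_le_sum fun u _ => h1 u).trans ?_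
    rw [← Finset.smul_sum, Finset.sum_add_distrib]
    refine nsmul_le_nsmul_right (add_le_add h2 (le_of_eq ?_)) _
    simp
  have hW0 : 0 ≤ W := by
    refine sum_nonneg fun i _ => ?_
    have h : IsSelfAdjoint (S i.1 i.2) := by
      simp only [IsSelfAdjoint, hS, star_sum, star_smul, star_mul, star_star, Complex.star_def,
        Complex.conj_conj]
      rw [Finset.sum_comm]
    exact h.mul_self_nonneg
  have hTle : ‖T‖ ≤ δ * (N : ℝ) ^ 3 := norm_crossed_le e hm1 hδ hs
  have hN : (0 : ℝ) < N := Nat.cast_pos.2 (Nat.pos_of_neZero N)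
  have hWn : ‖W‖ ≤ (16 : ℝ) ^ N * (δ * (N : ℝ) ^ 3 + 2 * (N : ℝ) ^ 2) := by
    refine (CStarAlgebra.norm_le_norm_of_nonneg_of_le hW0 hW1).trans ?_
    rw [← smul_add, smul_smul]
    refine norm_nsmul_le.trans ?_
    rw [← mul_pow]
    simp only [Nat.cast_pow, Nat.cast_mul, Nat.cast_ofNat]
    rw [show (4 : ℝ) * 4 = 16 by norm_num]
    refine mul_le_mul_of_nonneg_left (norm_add₃_le.trans ?_) (by positivity)
    have h := (norm_nsmul_le (n := N * N) (a := (1 : A))).trans
      (mul_le_of_le_one_right (by positivity) norm_one_le)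
    push_cast at h
    linarith
  simp only [hγ, smul_mul_smul_comm, ← Finset.smul_sum, ← hW, norm_smul, norm_mul, norm_inv,
    Complex.norm_natCast]
  rw [← mul_inv, inv_mul_le_iff₀ (by positivity)]
  exact hWn.trans_eq (by ring)

end Main

section Cut

variable {K : ℝ}

/-- The weight of the part above the level `K`. -/
noncomputable def frac (K t : ℝ) : ℝ := |t| / (K ^ 2 + |t|)

/-- The part of `x` above the level `K`. -/
noncomputable def cut (K : ℝ) (x : A) : A :=
  x * cfc (frac K) (star x * x)

theorem continuous_frac (hK : 0 < K) : Continuous (frac K) :=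
  continuous_abs.div (by fun_prop) fun t => by positivity

theorem sq_frac_le (hK : 0 < K) {t : ℝ} (ht : 0 ≤ t) :
    frac K t * frac K t ≤ (K ^ 2)⁻¹ * t := by
  rw [frac, abs_of_nonneg ht, div_mul_div_comm, inv_mul_eq_div,
    div_le_div_iff₀ (by positivity) (by positivity)]
  nlinarith [mul_nonneg ht ht, mul_nonneg (mul_nonneg ht ht) ht, sq_nonneg K,
    mul_nonneg (mul_nonneg ht (sq_nonneg K)) (sq_nonneg K), mul_nonneg (mul_nonneg ht ht) (sq_nonneg K)]

theorem norm_sub_cut_le (hK : 0 < K) (x : A) : ‖x - cut K x‖ ≤ K := by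
  have hc := continuous_frac hK
  have e1 : x - cut K x = x * cfc (fun t : ℝ => 1 - frac K t) (star x * x) := by
    rw [cut, cfc_sub (fun _ : ℝ => (1 : ℝ)) (frac K) (star x * x), cfc_const_one ℝ (star x * x),
      mul_sub, mul_one]
  set h : ℝ → ℝ := fun t => 1 - frac K t
  have hh : Continuous h := by fun_prop
  have e2 : star (x * cfc h (star x * x)) * (x * cfc h (star x * x)) =
      cfc (fun t => h t * t * h t) (star x * x) := by
    rw [star_mul, (cfc_predicate h (star x * x)).star_eq, cfc_mul (fun t => h t * t) h _,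
      cfc_mul h (fun t => t) _, cfc_id' ℝ (star x * x)]
    simp only [mul_assoc]
  rw [e1]
  refine abs_le_of_sq_le_sq' ?_ hK.le |>.2
  rw [sq, ← CStarRing.norm_star_mul_self, e2]
  refine norm_cfc_le (by positivity) fun t ht => ?_
  have ht0 : 0 ≤ t := spectrum_nonneg_of_nonneg (star_mul_self_nonneg x) ht
  have hd : (0 : ℝ) < K ^ 2 + t := by positivity
  have e3 : h t = K ^ 2 / (K ^ 2 + t) := by
    simp only [h, frac, abs_of_nonneg ht0]
    field_simp
    ring
  rw [e3, Real.norm_of_nonneg (by positivity)]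
  field_simp
  nlinarith [sq_nonneg (K ^ 2 - t), sq_nonneg K, mul_nonneg ht0 (sq_nonneg K)]

theorem star_cut_mul_le (hK : 0 < K) (x : A) :
    star (cut K x) * cut K x ≤ (K ^ 2)⁻¹ • (star x * x * (star x * x)) := by
  have hk := continuous_frac hK
  have e1 : star (cut K x) * cut K x = cfc (fun t => frac K t * t * frac K t) (star x * x) := by
    rw [cut, star_mul, (cfc_predicate (frac K) (star x * x)).star_eq, cfc_mul (fun t => frac K t * t) (frac K) _,
      cfc_mul (frac K) (fun t => t) _, cfc_id' ℝ (star x * x)]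
    simp only [mul_assoc]
  have e2 : (K ^ 2)⁻¹ • (star x * x * (star x * x)) =
      cfc (fun t : ℝ => (K ^ 2)⁻¹ • (t * t)) (star x * x) := by
    rw [cfc_smul _ (fun t : ℝ => t * t) _, cfc_mul (fun t : ℝ => t) (fun t => t) _,
      cfc_id' ℝ (star x * x)]
  rw [e1, e2]
  refine cfc_mono fun t ht => ?_
  have ht0 : 0 ≤ t := spectrum_nonneg_of_nonneg (star_mul_self_nonneg x) ht
  calc frac K t * t * frac K t = t * (frac K t * frac K t) := by ring
    _ ≤ t * ((K ^ 2)⁻¹ * t) := mul_le_mul_of_nonneg_left (sq_frac_le hK ht0) ht0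
    _ = _ := by rw [smul_eq_mul]; ring

theorem cut_mul_star_le (hK : 0 < K) (x : A) :
    cut K x * star (cut K x) ≤ (K ^ 2)⁻¹ • (x * star x * (x * star x)) := by
  have hk := continuous_frac hK
  have e1 : cut K x * star (cut K x) = x * cfc (fun t => frac K t * frac K t) (star x * x) * star x := by
    rw [cut, star_mul, (cfc_predicate (frac K) (star x * x)).star_eq, cfc_mul (frac K) (frac K) _]
    simp only [mul_assoc]
  have e2 : (K ^ 2)⁻¹ • (x * star x * (x * star x)) =
      x * cfc (fun t : ℝ => (K ^ 2)⁻¹ • t) (star x * x) * star x := by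
    rw [cfc_smul _ (fun t : ℝ => t) _, cfc_id' ℝ (star x * x)]
    simp only [mul_smul_comm, smul_mul_assoc, mul_assoc]
  rw [e1, e2]
  exact star_right_conjugate_le_conjugate (cfc_mono fun t ht =>
    (sq_frac_le hK (spectrum_nonneg_of_nonneg (star_mul_self_nonneg x) ht)).trans_eq
      (smul_eq_mul _ _).symm) x

end Cut

end Moment

open Moment in
/-- The random element is bounded by `K` up to a part which is small on average. -/
theorem exists_split [NeZero N] (e : MU A N) {a : A} (ha : a ∈ unitary A) {δ : ℝ} (hδ : 0 ≤ δ)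
    (hs : Spread e δ a) {K : ℝ} (hK : 0 < K) :
    ∃ g : (Fin N → Fin 4) × (Fin N → Fin 4) → A, (∀ i, ‖g i‖ ≤ K) ∧
      ‖∑ i, star (gam e a i.1 i.2 - g i) * (gam e a i.1 i.2 - g i)‖ ≤
        (16 : ℝ) ^ N * ((2 + δ * N) / K ^ 2) ∧
      ‖∑ i, (gam e a i.1 i.2 - g i) * star (gam e a i.1 i.2 - g i)‖ ≤
        (16 : ℝ) ^ N * ((2 + δ * N) / K ^ 2) := by
  let _ : PartialOrder A := CStarAlgebra.spectralOrder A
  have : StarOrderedRing A := CStarAlgebra.spectralOrderedRing A
  refine ⟨fun i => gam e a i.1 i.2 - cut K (gam e a i.1 i.2), fun i => norm_sub_cut_le hK _,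
    ?_, ?_⟩ <;> simp only [sub_sub_cancel]
  · refine (CStarAlgebra.norm_le_norm_of_nonneg_of_le (sum_nonneg fun i _ => star_mul_self_nonneg _)
      (sum_le_sum fun i _ => star_cut_mul_le hK _)).trans ?_
    rw [← Finset.smul_sum, norm_smul, Real.norm_of_nonneg (by positivity), inv_mul_eq_div,
      ← mul_div_assoc]
    gcongr
    exact norm_moment_le e ha hδ fun p => (hs p).1
  · refine (CStarAlgebra.norm_le_norm_of_nonneg_of_le (sum_nonneg fun i _ => mul_star_self_nonneg _)
      (sum_le_sum fun i _ => cut_mul_star_le hK _)).trans ?_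
    rw [← Finset.smul_sum, norm_smul, Real.norm_of_nonneg (by positivity), inv_mul_eq_div,
      ← mul_div_assoc]
    gcongr
    have h := norm_moment_le e (Unitary.star_mem ha) hδ fun p => by
      rw [star_star]; exact (hs p).2
    rw [← (Equiv.prodComm (Fin N → Fin 4) (Fin N → Fin 4)).sum_comp] at h
    simpa only [Equiv.prodComm_apply, Prod.fst_swap, Prod.snd_swap, star_gam, star_star] using h

end Vale.Agent.P082.Full
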