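import Vale.Agent.P082.Full.Basic

/-!
P082: words with inserted elements, their expansion in matrix units and their factorisations.
-/

open Finset
open scoped ComplexConjugate

namespace Vale.Agent.P082.Full

variable {A : Type*} [CStarAlgebra A] {N n : ℕ}

/-- The word `c₁ u₁ c₂ u₂ ⋯`. -/
noncomputable def wd (c u : Fin n → A) : A := (List.ofFn fun i => c i * u i).prod

theorem wd_zero (c u : Fin 0 → A) : wd c u = 1 := by simp [wd]

theorem wd_succ (c u : Fin (n + 1) → A) :
    wd c u = c 0 * u 0 * wd (fun i => c i.succ) (fun i => u i.succ) := by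
  simp [wd, List.ofFn_succ]

theorem wordE_eq (e : MU A N) (c : Fin n → A) (p q : Fin n → Fin N) :
    wordE e c p q = wd c fun i => e.e (p i) (q i) := rfl

theorem wd_lin (e : MU A N) (c : Fin n → A) (t : Fin n → Fin N → Fin N → ℂ) :
    wd c (fun i => lin e (t i)) =
      ∑ p : Fin n → Fin N, ∑ q : Fin n → Fin N, (∏ i, t i (p i) (q i)) • wordE e c p q := by
  have h : ∀ u, wd c u = MultilinearMap.mkPiAlgebraFin ℂ n A fun i => c i * u i := fun u => rfl
  rw [h]
  simp only [lin, Finset.mul_sum, mul_smul_comm, ← Fintype.sum_prod_type']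
  rw [MultilinearMap.map_sum, ← (Equiv.arrowProdEquivProdArrow (Fin n) (fun _ => Fin N)
    (fun _ => Fin N)).symm.sum_comp, Fintype.sum_prod_type]
  simp [MultilinearMap.map_smul_univ, Equiv.arrowProdEquivProdArrow, wordE, Fintype.sum_prod_type]

theorem norm_one_le : ‖(1 : A)‖ ≤ 1 := by
  rcases subsingleton_or_nontrivial A with h | h
  · simp [Subsingleton.elim (1 : A) 0]
  · rw [norm_one]

theorem norm_mul_le_one {a b : A} (ha : ‖a‖ ≤ 1) (hb : ‖b‖ ≤ 1) : ‖a * b‖ ≤ 1 :=
  (norm_mul_le _ _).trans (mul_le_one₀ ha (norm_nonneg _) hb)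

theorem norm_wd_le {c u : Fin n → A}
    (hc1 : ∀ i, ‖c i‖ ≤ 1) (hu : ∀ i, ‖u i‖ ≤ 1) : ‖wd c u‖ ≤ 1 := by
  induction n with
  | zero => rw [wd_zero]; exact norm_one_le
  | succ n ih =>
    rw [wd_succ]
    exact norm_mul_le_one (norm_mul_le_one (hc1 0) (hu 0))
      (ih (fun i => hc1 i.succ) fun i => hu i.succ)

/-- A word as a function of one slot. -/
theorem exists_factor_one (c u : Fin n → A) (hc : ∀ i, ‖c i‖ ≤ 1) (i : Fin n)
    (hu : ∀ k, k ≠ i → ‖u k‖ ≤ 1) :
    ∃ a b : A, ‖a‖ ≤ 1 ∧ ‖b‖ ≤ 1 ∧ ((i : ℕ) = 0 → a = c i) ∧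
      ∀ v, wd c (Function.update u i v) = a * v * b := by
  induction n with
  | zero => exact i.elim0
  | succ n ih =>
    refine Fin.cases (fun hu => ?_) (fun i hu => ?_) i hu
    · refine ⟨c 0, wd (fun k => c k.succ) fun k => u k.succ, hc 0,
        norm_wd_le (fun k => hc _) fun k => hu _ (Fin.succ_ne_zero k), fun _ => rfl, fun v => ?_⟩
      simp [wd_succ, Fin.succ_ne_zero]
    · obtain ⟨a, b, ha, hb, -, he⟩ := ih (fun k => c k.succ) (fun k => u k.succ) (fun k => hc _) i
        fun k hk => hu _ fun h => hk (Fin.succ_injective _ h)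
      refine ⟨c 0 * u 0 * a, b,
        norm_mul_le_one (norm_mul_le_one (hc 0) (hu 0 (Fin.succ_ne_zero i).symm)) ha, hb,
        fun h => by simp at h, fun v => ?_⟩
      rw [wd_succ, Function.update_of_ne (Fin.succ_ne_zero i).symm,
        show (fun k : Fin n => Function.update u i.succ v k.succ) =
          Function.update (fun k => u k.succ) i v from
          Function.update_comp_eq_of_injective u (Fin.succ_injective n) i v, he]
      simp only [mul_assoc]

/-- A word as a function of two slots. -/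
theorem exists_factor (c u : Fin n → A) (hc : ∀ i, ‖c i‖ ≤ 1) {i j : Fin n} (hij : i < j)
    (hu : ∀ k, k ≠ i → k ≠ j → ‖u k‖ ≤ 1) :
    ∃ a m b : A, ‖a‖ ≤ 1 ∧ ‖m‖ ≤ 1 ∧ ‖b‖ ≤ 1 ∧ ((j : ℕ) = i + 1 → m = c j) ∧
      ∀ v w, wd c (Function.update (Function.update u i v) j w) = a * v * m * w * b := by
  induction n with
  | zero => exact i.elim0
  | succ n ih =>
    obtain ⟨j, rfl⟩ := Fin.exists_succ_eq.2 (Fin.ne_zero_of_lt hij)
    have upd : ∀ (f : Fin (n + 1) → A) (k : Fin n) (w : A),
        (fun l : Fin n => Function.update f k.succ w l.succ) =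
          Function.update (fun l => f l.succ) k w := fun f k w =>
      Function.update_comp_eq_of_injective f (Fin.succ_injective n) k w
    refine Fin.cases (fun hij hu => ?_) (fun i hij hu => ?_) i hij hu
    · obtain ⟨m, b, hm, hb, hmc, he⟩ := exists_factor_one (fun k => c k.succ) (fun k => u k.succ)
        (fun k => hc _) j fun k hk => hu _ (Fin.succ_ne_zero k) fun h => hk (Fin.succ_injective _ h)
      refine ⟨c 0, m, b, hc 0, hm, hb, fun h => hmc (by simpa using h), fun v w => ?_⟩
      rw [wd_succ, upd, Function.update_of_ne (Fin.succ_ne_zero j).symm, Function.update_self]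
      simp only [ne_eq, Fin.succ_ne_zero, not_false_eq_true, Function.update_of_ne, he, mul_assoc]
    · obtain ⟨a, m, b, ha, hm, hb, hmc, he⟩ := ih (fun k => c k.succ) (fun k => u k.succ)
        (fun k => hc _) (Fin.succ_lt_succ_iff.1 hij) fun k h1 h2 =>
          hu _ (fun h => h1 (Fin.succ_injective _ h)) fun h => h2 (Fin.succ_injective _ h)
      refine ⟨c 0 * u 0 * a, m, b, norm_mul_le_one (norm_mul_le_one (hc 0)
        (hu 0 (Fin.succ_ne_zero i).symm (Fin.succ_ne_zero j).symm)) ha, hm, hb,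
        fun h => hmc (by simpa using h), fun v w => ?_⟩
      rw [wd_succ, upd, upd, Function.update_of_ne (Fin.succ_ne_zero j).symm,
        Function.update_of_ne (Fin.succ_ne_zero i).symm, he]
      simp only [mul_assoc]

/-- Products of random monomial unitaries in the slots are orthogonal coefficient tensors. -/
theorem sum_prod_pauli [NeZero N] (p q r s : Fin n → Fin N) :
    ∑ S : Fin n → Fin N × (Fin N → Fin 4),
        ∏ i, (conj (pauliC (S i) (r i) (s i)) * pauliC (S i) (p i) (q i)) =
      if r = p ∧ s = q then ((4 : ℂ) ^ N) ^ n else 0 := by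
  rw [← Fintype.prod_sum fun i t => conj (pauliC t (r i) (s i)) * pauliC t (p i) (q i)]
  simp only [pauli_cov]
  by_cases h : r = p ∧ s = q
  · obtain ⟨rfl, rfl⟩ := h
    simp
  · rw [if_neg h]
    obtain ⟨i, hi⟩ : ∃ i, ¬(r i = p i ∧ s i = q i) := by
      by_contra hne
      push Not at hne
      exact h ⟨funext fun i => (hne i).1, funext fun i => (hne i).2⟩
    exact Finset.prod_eq_zero (mem_univ i) (if_neg hi)

end Vale.Agent.P082.Full
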