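import Vale.Agent.P082.Full.SmallLG
import Vale.Agent.P082.Full.Moment
import Vale.Agent.P082.Full.Word

/-!
P082: substitution of coefficient laws with the same covariance, and the law of a crossing pair.
-/

open Finset
open scoped ComplexConjugate

namespace Vale.Agent.P082.Full

variable {A : Type*} [CStarAlgebra A] {τ : A →ₗ[ℂ] ℂ} {N n : ℕ}

/-! ### General facts -/

theorem norm_le_one_of_unitary {u : A} (hu : u ∈ unitary A) : ‖u‖ ≤ 1 := by
  rcases subsingleton_or_nontrivial A with hA | hA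
  · simp [Subsingleton.elim u 0]
  · exact (CStarRing.norm_of_mem_unitary hu).le

/-- A sesquilinear expression only sees the covariance of the coefficients. -/
theorem quad {ι Ω : Type*} [Fintype ι] [DecidableEq ι] [Fintype Ω] (T : Ω → ι → ℂ) {κ : ℂ}
    (hT : ∀ a b, ∑ o, conj (T o a) * T o b = if a = b then κ else 0) (φ : A →ₗ[ℂ] A)
    (v w : ι → A) :
    ∑ o, star (∑ i, T o i • v i) * φ (∑ i, T o i • w i) = κ • ∑ i, star (v i) * φ (w i) := by
  have e : ∀ o, star (∑ i, T o i • v i) * φ (∑ i, T o i • w i) =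
      ∑ i, ∑ j, (conj (T o i) * T o j) • (star (v i) * φ (w j)) := fun o => by
    simp only [star_sum, star_smul, map_sum, map_smul, Finset.sum_mul, Finset.mul_sum,
      smul_mul_smul_comm, Complex.star_def]
    exact Finset.sum_comm
  simp only [e]
  rw [Finset.sum_comm, Finset.smul_sum]
  refine sum_congr rfl fun i _ => ?_
  rw [Finset.sum_comm]
  simp only [← Finset.sum_smul, hT, ite_smul, zero_smul, Finset.sum_ite_eq, mem_univ, if_true]

/-- Products of slotwise orthogonal coefficients are orthogonal. -/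
theorem sum_prod_law {β : Type*} [DecidableEq β] {X : Type*} [Fintype X]
    (f : Fin n → X → β → ℂ) (g : Fin n → ℂ) (a b : Fin n → β)
    (hf : ∀ k, ∑ s, conj (f k s (a k)) * f k s (b k) = if a k = b k then g k else 0) :
    ∑ S : Fin n → X, conj (∏ k, f k (S k) (a k)) * ∏ k, f k (S k) (b k) =
      if a = b then ∏ k, g k else 0 := by
  simp only [map_prod, ← Finset.prod_mul_distrib]
  rw [← Fintype.prod_sum (fun k s => conj (f k s (a k)) * f k s (b k))]
  simp only [hf]
  split_ifs with h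
  · subst h; simp
  · obtain ⟨k, hk⟩ := Function.ne_iff.1 h
    exact Finset.prod_eq_zero (mem_univ k) (if_neg hk)

theorem sum_pairs [NeZero N] (e : MU A N) (c : Fin n → A) (t : Fin n → Fin N × Fin N → ℂ) :
    ∑ pq : (Fin n → Fin N) × (Fin n → Fin N),
        (∏ k, t k (pq.1 k, pq.2 k)) • wordE e c pq.1 pq.2 =
      wd c fun k => lin e fun a b => t k (a, b) := by
  rw [wd_lin, Fintype.sum_prod_type]

/-- The same with the places of the word permuted. -/
theorem sum_pairs_perm [NeZero N] (e : MU A N) (c : Fin n → A) (σ : Equiv.Perm (Fin n))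
    (t : Fin n → Fin N × Fin N → ℂ) :
    ∑ pq : (Fin n → Fin N) × (Fin n → Fin N),
        (∏ k, t k (pq.1 k, pq.2 k)) • wordE e c (pq.1 ∘ σ) (pq.2 ∘ σ) =
      wd c fun m => lin e fun a b => t (σ m) (a, b) := by
  rw [← sum_pairs e c fun m => t (σ m)]
  let E := Equiv.arrowCongr σ.symm (Equiv.refl (Fin N))
  refine Fintype.sum_equiv (E.prodCongr E) _ _ fun pq => ?_
  have hE : ∀ p : Fin n → Fin N, E p = p ∘ σ := fun p => rfl
  simp only [Equiv.prodCongr_apply, Prod.map, hE, Function.comp_apply]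
  rw [Equiv.prod_comp σ fun k => t k (pq.1 k, pq.2 k)]

/-- A product with two exceptional places. -/
theorem prod_two {i j : Fin n} (hij : i ≠ j) (g : Fin n → ℂ) :
    ∏ k, g k = g i * g j * ∏ k ∈ ({i, j} : Finset (Fin n))ᶜ, g k := by
  rw [← Finset.prod_mul_prod_compl {i, j} g, Finset.prod_pair hij]

theorem sum_mul_sum' {ι κ R : Type*} [Fintype ι] [Fintype κ] [CommSemiring R]
    (f : ι → R) (g : κ → R) : (∑ i, f i) * ∑ j, g j = ∑ x : ι × κ, f x.1 * g x.2 := by
  rw [Fintype.sum_prod_type, Finset.sum_mul_sum]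

/-! ### The order bound for families -/

/-- Contractions outside do not increase the norm of a sum of squares. -/
theorem norm_sum_conj_le {ι : Type*} [Fintype ι] (P R : A) (hP : ‖P‖ ≤ 1) (hR : ‖R‖ ≤ 1)
    (Q : ι → A) :
    ‖∑ i, star (P * Q i * R) * (P * Q i * R)‖ ≤ ‖∑ i, star (Q i) * Q i‖ := by
  letI := CStarAlgebra.spectralOrder A
  letI := CStarAlgebra.spectralOrderedRing A
  have h1 : star P * P ≤ 1 := by
    refine CStarAlgebra.norm_le_one_iff_of_nonneg (star P * P) (star_mul_self_nonneg P) |>.1 ?_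
    rw [CStarRing.norm_star_mul_self]
    exact mul_le_one₀ hP (norm_nonneg _) hP
  have h2 : ∀ i, star (P * Q i) * (P * Q i) ≤ star (Q i) * Q i := fun i => by
    have h := star_left_conjugate_le_conjugate h1 (Q i)
    simpa only [star_mul, mul_assoc, mul_one, one_mul] using h
  have h3 : ∀ i, star (P * Q i * R) * (P * Q i * R) =
      star R * (star (P * Q i) * (P * Q i)) * R := fun i => by
    simp only [star_mul, mul_assoc]
  have h4 : ‖∑ i, star (P * Q i) * (P * Q i)‖ ≤ ‖∑ i, star (Q i) * Q i‖ :=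
    CStarAlgebra.norm_le_norm_of_nonneg_of_le
      (Finset.sum_nonneg fun i _ => star_mul_self_nonneg _) (Finset.sum_le_sum fun i _ => h2 i)
  simp only [h3, ← Finset.mul_sum, ← Finset.sum_mul]
  refine le_trans ?_ h4
  refine norm_mul₃_le.trans ?_
  rw [norm_star]
  calc _ ≤ 1 * ‖∑ i, star (P * Q i) * (P * Q i)‖ * 1 := by gcongr
    _ = _ := by ring

/-! ### The pair law -/

variable [NeZero N]

/-- The coefficient of the crossing pair: a monomial unitary joins the outer indices and two phase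
vectors the inner ones. -/
noncomputable def pairC (o : (Fin N × (Fin N → Fin 4)) × (Fin N → Fin 4) × (Fin N → Fin 4))
    (x y : Fin N × Fin N) : ℂ :=
  ((Real.sqrt N : ℝ) : ℂ)⁻¹ * pauliC o.1 x.1 y.2 * (conj (ph (o.2.1 x.2)) * ph (o.2.2 y.1))

theorem pair_cov (x y x' y' : Fin N × Fin N) :
    ∑ o, conj (pairC o x y) * pairC o x' y' =
      if x = x' ∧ y = y' then (64 : ℂ) ^ N / N else 0 := by
  have hs : conj ((Real.sqrt N : ℝ) : ℂ)⁻¹ * ((Real.sqrt N : ℝ) : ℂ)⁻¹ = (N : ℂ)⁻¹ := by
    rw [map_inv₀, Complex.conj_ofReal, ← mul_inv, ← Complex.ofReal_mul,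
      Real.mul_self_sqrt (Nat.cast_nonneg N), Complex.ofReal_natCast]
  have e : ∀ o, conj (pairC o x y) * pairC o x' y' = (N : ℂ)⁻¹ *
      ((conj (pauliC o.1 x.1 y.2) * pauliC o.1 x'.1 y'.2) *
        ((conj (ph (o.2.1 x'.2)) * ph (o.2.1 x.2)) *
          (conj (ph (o.2.2 y.1)) * ph (o.2.2 y'.1)))) := fun o => by
    simp only [pairC, map_mul, Complex.conj_conj]
    rw [← hs]
    ring
  simp only [e, ← Finset.mul_sum]
  rw [← sum_mul_sum' (fun s => conj (pauliC s x.1 y.2) * pauliC s x'.1 y'.2)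
    fun r : (Fin N → Fin 4) × (Fin N → Fin 4) => (conj (ph (r.1 x'.2)) * ph (r.1 x.2)) *
      (conj (ph (r.2 y.1)) * ph (r.2 y'.1))]
  rw [← sum_mul_sum' (fun r : Fin N → Fin 4 => conj (ph (r x'.2)) * ph (r x.2))
    fun r : Fin N → Fin 4 => conj (ph (r y.1)) * ph (r y'.1), pauli_cov]
  rw [sum_conj_ph_mul, sum_conj_ph_mul, show (64 : ℂ) ^ N = 4 ^ N * (4 ^ N * 4 ^ N) by
    rw [← mul_pow, ← mul_pow]; norm_num]
  by_cases h : x = x' ∧ y = y'
  · obtain ⟨rfl, rfl⟩ := h
    simp [div_eq_mul_inv, mul_comm]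
  · rw [if_neg h]
    simp only [ite_mul, zero_mul, mul_ite, mul_zero]
    split_ifs with h1 h2 h3 <;> try rfl
    exact absurd ⟨Prod.ext h3.1 h2.symm, Prod.ext h1 h3.2⟩ h

/-- The left factor of the pair, for the value `k` of the linking index. -/
noncomputable def pairL (o : (Fin N × (Fin N → Fin 4)) × (Fin N → Fin 4) × (Fin N → Fin 4))
    (k : Fin N) (x : Fin N × Fin N) : ℂ :=
  if x.1 = k + o.1.1 then conj (ph (o.2.1 x.2)) else 0

/-- The right factor of the pair, for the value `k` of the linking index. -/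
noncomputable def pairR (o : (Fin N × (Fin N → Fin 4)) × (Fin N → Fin 4) × (Fin N → Fin 4))
    (k : Fin N) (y : Fin N × Fin N) : ℂ :=
  if y.2 = k then ((Real.sqrt N : ℝ) : ℂ)⁻¹ * ph (o.1.2 k) * ph (o.2.2 y.1) else 0

theorem pairC_eq_sum (o) (x y : Fin N × Fin N) :
    pairC o x y = ∑ k, pairL o k x * pairR o k y := by
  simp only [pairL, pairR, mul_ite, mul_zero, Finset.sum_ite_eq, mem_univ, if_true, pairC, pauliC]
  split <;> ring

/-- In order, the pair gives a monomial unitary times the random element of the commutant. -/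
theorem pair_straight (e : MU A N) (m : A) (o) :
    ∑ k, lin e (fun a b => pairL o k (a, b)) * m * lin e (fun a b => pairR o k (a, b)) =
      lin e (pauliC o.1) * gam e m o.2.1 o.2.2 := by
  have hL : ∀ k, lin e (fun a b => pairL o k (a, b)) =
      ∑ l, conj (ph (o.2.1 l)) • e.e (k + o.1.1) l := fun k => by
    simp only [lin, pairL, ite_smul, zero_smul]
    rw [Finset.sum_comm]
    simp
  have hR : ∀ k, lin e (fun a b => pairR o k (a, b)) =
      ∑ p, (((Real.sqrt N : ℝ) : ℂ)⁻¹ * ph (o.1.2 k) * ph (o.2.2 p)) • e.e p k := fun k => by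
    simp only [lin, pairR, ite_smul, zero_smul]
    simp
  have hV : lin e (pauliC o.1) = ∑ k, ph (o.1.2 k) • e.e (k + o.1.1) k := by
    simp only [lin, pauliC, ite_smul, zero_smul]
    rw [Finset.sum_comm]
    simp
  have hkey : ∀ k l p, e.e (k + o.1.1) k * entry e m l p = e.e (k + o.1.1) l * m * e.e p k :=
    fun k l p => by
      rw [entry, Finset.mul_sum, Finset.sum_eq_single k (fun s _ hs => by
        rw [← mul_assoc, ← mul_assoc, e.mul_e, if_neg (Ne.symm hs), zero_mul, zero_mul]) (by simp)]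
      rw [← mul_assoc, ← mul_assoc, e.mul_e, if_pos rfl]
  simp only [hL, hR, hV, gam, Finset.sum_mul, Finset.mul_sum, smul_mul_assoc, mul_smul_comm,
    Finset.smul_sum, smul_smul, hkey]
  refine Eq.trans ?_ (Finset.sum_comm_cycle).symm
  refine sum_congr rfl fun k _ => ?_
  rw [Finset.sum_comm]
  exact sum_congr rfl fun l _ => sum_congr rfl fun p _ => by congr 1; ring

/-- The column of the left phase vector. -/
noncomputable def colU (e : MU A N) (u : Fin N → Fin 4) : A := ∑ p, ph (u p) • e.e p 0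

/-- The middle of the crossed pair, in the first corner. -/
noncomputable def midX (e : MU A N) (s : Fin N × (Fin N → Fin 4)) (M : A) : A :=
  ∑ k, ph (s.2 k) • (e.e 0 k * M * e.e (k + s.1) 0)

theorem star_colU_mul (e : MU A N) (u : Fin N → Fin 4) :
    star (colU e u) * colU e u = (N : ℂ) • e.e 0 0 := by
  simp only [colU, star_sum, star_smul, Finset.sum_mul, Finset.mul_sum, smul_mul_smul_comm,
    e.star_e, e.mul_e, smul_ite, smul_zero, Finset.sum_ite_eq, Finset.sum_ite_eq', mem_univ, if_true,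
    Complex.star_def, conj_ph_mul, one_smul, Finset.sum_const, card_univ, Fintype.card_fin,
    Nat.cast_smul_eq_nsmul]

theorem colU_mul_zero (e : MU A N) (u : Fin N → Fin 4) : colU e u * e.e 0 0 = colU e u := by
  simp [colU, Finset.sum_mul, e.mul_e]

theorem zero_mul_midX (e : MU A N) (s) (M : A) : e.e 0 0 * midX e s M = midX e s M := by
  simp [midX, Finset.mul_sum, ← mul_assoc, e.mul_e]

/-- Crossed, the pair passes through a corner of rank one. -/
theorem pair_crossed (e : MU A N) (M : A) (o) :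
    ∑ k, lin e (fun a b => pairR o k (a, b)) * M * lin e (fun a b => pairL o k (a, b)) =
      ((Real.sqrt N : ℝ) : ℂ)⁻¹ • (colU e o.2.2 * midX e o.1 M * star (colU e o.2.1)) := by
  have hL : ∀ k, lin e (fun a b => pairL o k (a, b)) =
      ∑ l, conj (ph (o.2.1 l)) • e.e (k + o.1.1) l := fun k => by
    simp only [lin, pairL, ite_smul, zero_smul]
    rw [Finset.sum_comm]
    simp
  have hR : ∀ k, lin e (fun a b => pairR o k (a, b)) =
      ∑ p, (((Real.sqrt N : ℝ) : ℂ)⁻¹ * ph (o.1.2 k) * ph (o.2.2 p)) • e.e p k := fun k => by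
    simp only [lin, pairR, ite_smul, zero_smul]
    simp
  have hm : ∀ k l p, e.e p 0 * (e.e 0 k * M * e.e (k + o.1.1) 0) * e.e 0 l =
      e.e p k * M * e.e (k + o.1.1) l := fun k l p => by
    rw [mul_assoc (e.e p 0), mul_assoc (e.e 0 k * M), e.mul_e, if_pos rfl, ← mul_assoc,
      ← mul_assoc, e.mul_e, if_pos rfl]
  simp only [hL, hR, colU, midX, star_sum, star_smul, e.star_e, Finset.sum_mul, Finset.mul_sum,
    smul_mul_assoc, mul_smul_comm, Finset.smul_sum, smul_smul, hm, Complex.star_def]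
  rw [Finset.sum_comm]
  refine sum_congr rfl fun l _ => ?_
  refine sum_congr rfl fun k _ => sum_congr rfl fun p _ => ?_
  congr 1; ring

variable (hτ : IsTr τ)
include hτ

theorem trace_diag (e : MU A N) : (τ (e.e 0 0)).re ≤ 1 / N := by
  have h : ∀ i, τ (e.e i i) = τ (e.e 0 0) := fun i => by
    rw [show e.e i i = e.e i 0 * e.e 0 i by rw [e.mul_e, if_pos rfl], hτ.comm, e.mul_e, if_pos rfl]
  have h1 : τ (1 : A) = (N : ℂ) * τ (e.e 0 0) := by
    rw [← e.sum_e, map_sum]; simp [h]
  have h2 := hτ.le_one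
  rw [h1, ← Complex.ofReal_natCast, Complex.re_ofReal_mul] at h2
  rw [le_div_iff₀ (Nat.cast_pos.2 (NeZero.pos N)), mul_comm]
  exact h2

/-- The trace pairing against the crossed pair. -/
theorem crossed_pairing (e : MU A N) (M : A) (o) {G : A} (hG : ‖G‖ ≤ 1) :
    ‖τ (star (∑ k, lin e (fun a b => pairR o k (a, b)) * M *
        lin e (fun a b => pairL o k (a, b))) * G)‖ ≤
      √(sqn τ (∑ k, lin e (fun a b => pairR o k (a, b)) * M *
        lin e (fun a b => pairL o k (a, b)))) / √N := by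
  rw [pair_crossed]
  set U := colU e o.2.2
  set Z := ((Real.sqrt N : ℝ) : ℂ)⁻¹ • (U * midX e o.1 M * star (colU e o.2.1)) with hZ
  set q := (N : ℂ)⁻¹ • (U * star U) with hq
  have hN : (N : ℂ) ≠ 0 := Nat.cast_ne_zero.2 (NeZero.ne N)
  have hqs : star q = q := by
    simp [hq, star_smul]
  have hqU : q * U = U := by
    rw [hq, smul_mul_assoc, mul_assoc, star_colU_mul, mul_smul_comm, colU_mul_zero, smul_smul,
      inv_mul_cancel₀ hN, one_smul]
  have hqZ : q * Z = Z := by
    rw [hZ, mul_smul_comm, ← mul_assoc, ← mul_assoc, hqU]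
  have hqq : q * q = q := by
    rw [hq]
    conv_lhs => rw [mul_smul_comm, ← mul_assoc, ← hq, hqU]
  have e1 : τ (star Z * G) = τ (star Z * (q * G)) := by
    conv_lhs => rw [← hqZ, star_mul, hqs, mul_assoc]
  have h2 : sqn τ (q * G) ≤ 1 / N := by
    refine (hτ.sqn_mul_le q G).trans ?_
    have e2 : sqn τ q = (τ (e.e 0 0)).re := by
      rw [sqn, hqs, hqq, hq, map_smul, hτ.comm, star_colU_mul, map_smul, smul_eq_mul, smul_eq_mul,
        ← mul_assoc, inv_mul_cancel₀ hN, one_mul]
    calc sqn τ q * ‖G‖ ^ 2 ≤ sqn τ q * 1 :=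
          mul_le_mul_of_nonneg_left (pow_le_one₀ (norm_nonneg _) hG) (hτ.sqn_nonneg _)
      _ ≤ 1 / N := by rw [mul_one, e2]; exact trace_diag hτ e
  rw [e1]
  refine (hτ.norm_le_sqrt _ _).trans ?_
  rw [div_eq_mul_inv, ← Real.sqrt_inv, inv_eq_one_div]
  gcongr

/-- The crossed pair has mean square two-norm at most one. -/
theorem sum_sqn_crossed (e : MU A N) {M : A} (hM : ‖M‖ ≤ 1) :
    ∑ o : (Fin N × (Fin N → Fin 4)) × (Fin N → Fin 4) × (Fin N → Fin 4),
      sqn τ (∑ k, lin e (fun a b => pairR o k (a, b)) * M *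
        lin e (fun a b => pairL o k (a, b))) ≤ N * (64 : ℝ) ^ N := by
  have hN0 : (0 : ℝ) < N := Nat.cast_pos.2 (NeZero.pos N)
  have hZ : ∀ o : (Fin N × (Fin N → Fin 4)) × (Fin N → Fin 4) × (Fin N → Fin 4),
      sqn τ (∑ k, lin e (fun a b => pairR o k (a, b)) * M *
        lin e (fun a b => pairL o k (a, b))) = N * sqn τ (midX e o.1 M) := fun o => by
    rw [pair_crossed]
    set X := midX e o.1 M with hX
    set U := colU e o.2.2
    set W := colU e o.2.1
    have hX0 : X * e.e 0 0 = X := by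
      simp [hX, midX, Finset.sum_mul, mul_assoc, e.mul_e]
    have hU : star (U * X * star W) * (U * X * star W) = W * ((N : ℂ) • (star X * X)) * star W := by
      calc star (U * X * star W) * (U * X * star W)
          = W * (star X * (star U * U) * X) * star W := by
            simp only [star_mul, star_star, mul_assoc]
        _ = W * ((N : ℂ) • (star X * (e.e 0 0 * X))) * star W := by
            rw [star_colU_mul, mul_smul_comm, smul_mul_assoc, mul_assoc (star X)]
        _ = _ := by rw [zero_mul_midX]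
    have hs : conj ((Real.sqrt N : ℝ) : ℂ)⁻¹ * ((Real.sqrt N : ℝ) : ℂ)⁻¹ = (N : ℂ)⁻¹ := by
      rw [map_inv₀, Complex.conj_ofReal, ← mul_inv, ← Complex.ofReal_mul,
        Real.mul_self_sqrt (Nat.cast_nonneg N), Complex.ofReal_natCast]
    have hN : (N : ℂ) ≠ 0 := Nat.cast_ne_zero.2 (NeZero.ne N)
    rw [sqn, star_smul, smul_mul_smul_comm, Complex.star_def, hs, hU, map_smul, hτ.comm,
      ← mul_assoc, star_colU_mul]
    rw [smul_mul_smul_comm, map_smul, smul_eq_mul, smul_eq_mul, ← mul_assoc, ← mul_assoc,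
      inv_mul_cancel₀ hN, one_mul, hτ.comm, mul_assoc, hX0, ← Complex.ofReal_natCast,
      Complex.re_ofReal_mul, sqn]
  have hX : ∑ s : Fin N × (Fin N → Fin 4), τ (star (midX e s M) * midX e s M) =
      (4 : ℂ) ^ N * τ (star M * M) := by
    have eX : ∀ s, midX e s M =
        ∑ x : Fin N × Fin N, pauliC s x.1 x.2 • (e.e 0 x.2 * M * e.e x.1 0) := fun s => by
      rw [Fintype.sum_prod_type, Finset.sum_comm]
      simp only [pauliC, ite_smul, zero_smul, Finset.sum_ite_eq', mem_univ, if_true, midX]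
    have h := quad (A := A) (fun s (x : Fin N × Fin N) => pauliC s x.1 x.2) (κ := (4 : ℂ) ^ N)
      (fun a b => by rw [pauli_cov]; simp [Prod.ext_iff]) LinearMap.id
      (fun x => e.e 0 x.2 * M * e.e x.1 0) fun x => e.e 0 x.2 * M * e.e x.1 0
    simp only [LinearMap.id_apply] at h
    simp only [eX]
    rw [← map_sum, h, map_smul, smul_eq_mul]
    congr 1
    rw [map_sum, Fintype.sum_prod_type]
    have e3 : ∀ a b, τ (star (e.e 0 b * M * e.e a 0) * (e.e 0 b * M * e.e a 0)) =
        τ (star M * e.e b b * M * e.e a a) := fun a b => by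
      calc _ = τ (e.e 0 a * ((star M * (e.e b 0 * e.e 0 b) * M) * e.e a 0)) := by
            simp only [star_mul, e.star_e, mul_assoc]
        _ = τ ((star M * (e.e b 0 * e.e 0 b) * M) * (e.e a 0 * e.e 0 a)) := by
            rw [hτ.comm, mul_assoc]
        _ = _ := by simp [e.mul_e]
    simp only [e3]
    simp only [← map_sum, ← Finset.sum_mul, ← Finset.mul_sum, e.sum_e, mul_one]
  simp only [hZ]
  rw [← Finset.mul_sum, Fintype.sum_prod_type]
  simp only [Finset.sum_const, nsmul_eq_mul, ← Finset.mul_sum]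
  have h1 : ∑ s, sqn τ (midX e s M) ≤ (4 : ℝ) ^ N := by
    have := congrArg Complex.re hX
    rw [Complex.re_sum] at this
    rw [show ((4 : ℂ) ^ N) = (((4 : ℝ) ^ N : ℝ) : ℂ) by simp, Complex.re_ofReal_mul] at this
    refine this.le.trans (mul_le_of_le_one_right (by positivity) ?_)
    exact (hτ.sqn_le M).trans (pow_le_one₀ (norm_nonneg _) hM)
  refine mul_le_mul_of_nonneg_left ?_ hN0.le
  rw [card_univ, Fintype.card_prod, Fintype.card_fun, Fintype.card_fin, Fintype.card_fin]
  push_cast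
  calc (4 : ℝ) ^ N * 4 ^ N * ∑ s, sqn τ (midX e s M) ≤ 4 ^ N * 4 ^ N * 4 ^ N :=
        mul_le_mul_of_nonneg_left h1 (by positivity)
    _ = 64 ^ N := by rw [← mul_pow, ← mul_pow]; norm_num

end Vale.Agent.P082.Full
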