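import Vale.Agent.P082.Full.SmallLG
import Vale.Agent.P082.Full.Moment
import Vale.Agent.P082.Full.Word
import Vale.Agent.P082.Full.Pair

/-!
P082: every pairing term is bounded, and the crossing ones are small.
-/

open Finset
open scoped ComplexConjugate

namespace Vale.Agent.P082.Full

variable {A : Type*} [CStarAlgebra A] {τ : A →ₗ[ℂ] ℂ} {N n : ℕ}

theorem norm_pairing_le (hτ : IsTr τ) {z : A} (hz : ‖z‖ ≤ 1) (Y G : A) :
    ‖τ (z * (star Y * G))‖ ≤ √(sqn τ Y) * √(sqn τ G) := by
  rw [hτ.comm, mul_assoc]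
  refine (hτ.norm_le_sqrt _ _).trans (mul_le_mul_of_nonneg_left (Real.sqrt_le_sqrt ?_) (Real.sqrt_nonneg _))
  exact (hτ.sqn_mul_le G z).trans
    (mul_le_of_le_one_right (hτ.sqn_nonneg _) (pow_le_one₀ (norm_nonneg _) hz))

/-- Outside contractions do not increase the two-norm. -/
theorem sqn_sandwich_le (hτ : IsTr τ) {a b : A} (ha : ‖a‖ ≤ 1) (hb : ‖b‖ ≤ 1) (v : A) :
    sqn τ (a * v * b) ≤ sqn τ v := by
  refine (hτ.sqn_mul_le _ _).trans
    ((mul_le_of_le_one_right (hτ.sqn_nonneg _) (pow_le_one₀ (norm_nonneg _) hb)).trans ?_)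
  exact (hτ.sqn_mul_le' _ _).trans
    (mul_le_of_le_one_left (hτ.sqn_nonneg _) (pow_le_one₀ (norm_nonneg _) ha))

theorem sum_sqrt_le {ι : Type*} [Fintype ι] {f : ι → ℝ} (hf : ∀ i, 0 ≤ f i) {B : ℝ}
    (hB : ∑ i, f i ≤ B) : ∑ i, √(f i) ≤ √(Fintype.card ι) * √B := by
  have h := Real.sum_sqrt_mul_sqrt_le univ hf (g := fun _ => (1 : ℝ)) fun _ => zero_le_one
  simp only [Real.sqrt_one, mul_one, Finset.sum_const, card_univ, nsmul_one] at h
  refine h.trans ?_
  rw [mul_comm]
  gcongr

variable [NeZero N]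

/-- The `h` of a term, applied to the word. -/
noncomputable def appR (h : A →L[ℂ] A) (x : A) : A →ₗ[ℂ] A :=
  h.toLinearMap.comp (LinearMap.mulRight ℂ x)

theorem scaled_term_eq (e : MU A N) (τ : A →ₗ[ℂ] ℂ) (h : A →L[ℂ] A) (z x : A) (c : Fin n → A)
    (σ π : Equiv.Perm (Fin n)) {Ω : Type*} [Fintype Ω]
    (T : Ω → (Fin n → Fin N) × (Fin n → Fin N) → ℂ) {κ : ℂ}
    (hT : ∀ a b, ∑ o, conj (T o a) * T o b = if a = b then κ else 0) :
    κ * (N : ℂ) ^ n * term e τ h z x c σ π = ∑ o, τ (z *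
      (star (∑ i, T o i • wordE e c (i.1 ∘ σ) (i.2 ∘ π)) *
        h ((∑ i, T o i • wordE e c i.1 i.2) * x))) := by
  have hN : (N : ℂ) ^ n ≠ 0 := pow_ne_zero _ (Nat.cast_ne_zero.2 (NeZero.ne N))
  have hq := congrArg (fun y => τ (z * y)) (quad T hT (appR h x)
    (fun i => wordE e c (i.1 ∘ σ) (i.2 ∘ π)) fun i => wordE e c i.1 i.2)
  simp only [Finset.mul_sum, map_sum, mul_smul_comm, map_smul, smul_eq_mul, appR,
    LinearMap.comp_apply, LinearMap.mulRight_apply, ContinuousLinearMap.coe_coe] at hq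
  rw [term, ← Fintype.sum_prod_type (f := fun i : (Fin n → Fin N) × (Fin n → Fin N) =>
    τ (z * (star (wordE e c (i.1 ∘ σ) (i.2 ∘ π)) * h (wordE e c i.1 i.2 * x))))]
  rw [mul_assoc κ, ← mul_assoc ((N : ℂ) ^ n), mul_inv_cancel₀ hN, one_mul]
  simpa only [Finset.mul_sum, Finset.sum_mul, map_sum, map_smul, smul_mul_assoc, mul_smul_comm,
    smul_eq_mul] using hq.symm

theorem norm_term_le (e : MU A N) (hτ : IsTr τ) {h : A →L[ℂ] A} (hh : ‖h‖ ≤ 1) {z x : A}
    (hz : ‖z‖ ≤ 1) (hx : ‖x‖ ≤ 1) {c : Fin n → A} (hc : ∀ i, c i ∈ unitary A)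
    (σ π : Equiv.Perm (Fin n)) : ‖term e τ h z x c σ π‖ ≤ 1 := by
  classical
  let T : (Fin n → Fin N × (Fin N → Fin 4)) → (Fin n → Fin N) × (Fin n → Fin N) → ℂ :=
    fun S i => ∏ k, pauliC (S k) (i.1 k) (i.2 k)
  have hT : ∀ a b, ∑ S, conj (T S a) * T S b = if a = b then ((4 : ℂ) ^ N) ^ n else 0 := by
    intro a b
    have h1 := sum_prod_law (fun _ s (y : Fin N × Fin N) => pauliC s y.1 y.2) (fun _ => (4 : ℂ) ^ N)
      (fun k => (a.1 k, a.2 k)) (fun k : Fin n => (b.1 k, b.2 k))
      (fun k => by rw [pauli_cov]; simp only [Prod.mk.injEq])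
    simp only [Finset.prod_const, card_univ, Fintype.card_fin] at h1
    refine h1.trans (if_congr ?_ rfl rfl)
    simp [funext_iff, Prod.ext_iff, forall_and]
  set Y := fun S => ∑ i, T S i • wordE e c (i.1 ∘ σ) (i.2 ∘ π) with hY
  set R := fun S => ∑ i, T S i • wordE e c i.1 i.2 with hR
  have hR1 : ∀ S, ‖R S‖ ≤ 1 := fun S => by
    simp only [hR, T]
    rw [sum_pairs e c fun k y => pauliC (S k) y.1 y.2]
    exact norm_wd_le (fun k => norm_le_one_of_unitary (hc k))
      fun k => norm_le_one_of_unitary (pauli_mem_unitary e (S k))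
  have hsum : ∑ S, sqn τ (Y S) = ∑ S, sqn τ (R S) := by
    have hh' : ∀ σ' π' : Equiv.Perm (Fin n),
        ∑ S, τ (star (∑ i, T S i • wordE e c (i.1 ∘ σ') (i.2 ∘ π')) *
          (∑ i, T S i • wordE e c (i.1 ∘ σ') (i.2 ∘ π'))) =
        ((4 : ℂ) ^ N) ^ n * ∑ i : (Fin n → Fin N) × (Fin n → Fin N),
          τ (star (wordE e c i.1 i.2) * wordE e c i.1 i.2) := fun σ' π' => by
      have := congrArg τ (quad T hT LinearMap.id (fun i => wordE e c (i.1 ∘ σ') (i.2 ∘ π'))
        fun i => wordE e c (i.1 ∘ σ') (i.2 ∘ π'))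
      simp only [LinearMap.id_apply, map_sum, map_smul, smul_eq_mul] at this
      rw [this]
      congr 1
      exact Fintype.sum_equiv ((Equiv.arrowCongr σ'.symm (Equiv.refl _)).prodCongr
        (Equiv.arrowCongr π'.symm (Equiv.refl _))) _ _ fun i => rfl
    have h2 := congrArg Complex.re ((hh' σ π).trans (hh' 1 1).symm)
    simp only [Complex.re_sum, Equiv.Perm.coe_one, Function.comp_id] at h2
    exact h2
  set D := Fintype.card (Fin n → Fin N × (Fin N → Fin 4)) with hD
  have hbound : ∑ S, √(sqn τ (Y S)) ≤ D := by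
    refine (sum_sqrt_le (fun S => hτ.sqn_nonneg _) (B := (D : ℝ)) ?_).trans_eq
      (Real.mul_self_sqrt (Nat.cast_nonneg _))
    rw [hsum]
    refine (Finset.sum_le_card_nsmul _ _ 1 fun S _ => ?_).trans_eq (by simp [hD])
    exact (hτ.sqn_le _).trans (pow_le_one₀ (norm_nonneg _) (hR1 S))
  have hDc : ((4 : ℂ) ^ N) ^ n * (N : ℂ) ^ n = (D : ℂ) := by
    simp [hD, mul_pow, mul_comm]
  have hD0 : (0 : ℝ) < D := Nat.cast_pos.2 Fintype.card_pos
  have hsc := scaled_term_eq e τ h z x c σ π T hT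
  rw [hDc] at hsc
  have hn := congrArg norm hsc
  rw [norm_mul, Complex.norm_natCast] at hn
  refine le_of_mul_le_mul_left ?_ hD0
  rw [mul_one, hn]
  refine (norm_sum_le _ _).trans ((sum_le_sum fun S _ => ?_).trans hbound)
  refine (norm_pairing_le hτ hz (Y S) _).trans (mul_le_of_le_one_right (Real.sqrt_nonneg _) ?_)
  refine Real.sqrt_le_one.2 ((hτ.sqn_le _).trans (pow_le_one₀ (norm_nonneg _) ?_))
  exact (h.le_opNorm _).trans (mul_le_one₀ hh (norm_nonneg _) (norm_mul_le_one (hR1 S) hx))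

theorem exists_descent {σ : Equiv.Perm (Fin n)} (hσ : σ ≠ 1) :
    ∃ i j : Fin n, (j : ℕ) = i + 1 ∧ σ.symm j < σ.symm i := by
  by_contra hc
  push Not at hc
  apply hσ
  cases n with
  | zero => exact Subsingleton.elim _ _
  | succ m =>
    have hm : StrictMono σ.symm := Fin.strictMono_iff_lt_succ.2 fun k =>
      lt_of_le_of_ne (hc k.castSucc k.succ (by simp))
        (σ.symm.injective.ne Fin.castSucc_lt_succ.ne)
    have h1 : (σ.symm : Fin (m + 1) → Fin (m + 1)) = id :=
      (hm.range_inj strictMono_id).1 (by simp [Set.range_eq_univ.2 σ.symm.surjective])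
    ext k
    have h2 := congrFun h1 (σ k)
    simp only [Equiv.symm_apply_apply, id] at h2
    simp [← h2]

/-- For one choice of the other letters, the crossed pair is small on average. -/
theorem pair_bound (e : MU A N) (hτ : IsTr τ) {h : A →L[ℂ] A} (hh : ‖h‖ ≤ 1) {z x : A}
    (hz : ‖z‖ ≤ 1) (hx : ‖x‖ ≤ 1) {c : A} (hc : c ∈ unitary A) {δ : ℝ} (hδ : 0 ≤ δ)
    (hs : Spread e δ c) {K : ℝ} (hK : 0 < K) {a b a' M b' : A} (ha : ‖a‖ ≤ 1) (hb : ‖b‖ ≤ 1)
    (ha' : ‖a'‖ ≤ 1) (hM : ‖M‖ ≤ 1) (hb' : ‖b'‖ ≤ 1) :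
    ∑ o : (Fin N × (Fin N → Fin 4)) × (Fin N → Fin 4) × (Fin N → Fin 4),
      ‖τ (z * (star (a' * (∑ k, lin e (fun p q => pairR o k (p, q)) * M *
          lin e (fun p q => pairL o k (p, q))) * b') *
        h (a * (lin e (pauliC o.1) * gam e c o.2.1 o.2.2) * b * x)))‖ ≤
      (Fintype.card ((Fin N × (Fin N → Fin 4)) × (Fin N → Fin 4) × (Fin N → Fin 4)) : ℝ) *
        (K / √N + √(6 * (2 + δ * N)) / K) := by
  classical
  obtain ⟨g, hg, hD1, hD2⟩ := exists_split e hc hδ hs hK
  set P := Fin N × (Fin N → Fin 4)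
  set O := P × (Fin N → Fin 4) × (Fin N → Fin 4)
  set Z := fun o : O => ∑ k, lin e (fun p q => pairR o k (p, q)) * M *
    lin e (fun p q => pairL o k (p, q))
  set D := fun r => gam e c r.1 r.2 - g r with hD
  let V : P → A := fun s => lin e (pauliC s)
  have hV : ∀ s, ‖V s‖ ≤ 1 := fun s => norm_le_one_of_unitary (pauli_mem_unitary e s)
  set y := fun o : O => a * (V o.1 * D o.2) * b * x with hy
  have hN : (0 : ℝ) < N := Nat.cast_pos.2 (NeZero.pos N)
  have hcard : (Fintype.card O : ℝ) = N * 64 ^ N := by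
    simp only [O, P, Fintype.card_prod, Fintype.card_fun, Fintype.card_fin]
    push_cast
    rw [show (64 : ℝ) ^ N = 4 ^ N * (4 ^ N * 4 ^ N) by rw [← mul_pow, ← mul_pow]; norm_num]
    ring
  have hZ : ∑ o, sqn τ (Z o) ≤ Fintype.card O := hcard ▸ sum_sqn_crossed hτ e hM
  have hmain : ∀ o : O, ‖τ (z * (star (a' * Z o * b') * h (a * (V o.1 * g o.2) * b * x)))‖ ≤
      K / √N * √(sqn τ (Z o)) := fun o => by
    set G := h (a * (V o.1 * g o.2) * b * x) with hGdef
    have e1 : τ (z * (star (a' * Z o * b') * G)) =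
        τ (star (Z o) * (star a' * G * z * star b')) := by
      rw [hτ.comm, show star (a' * Z o * b') * G * z = star b' * (star (Z o) * (star a' * G * z)) by
        simp only [star_mul, mul_assoc], hτ.comm, mul_assoc]
    have hG : ‖star a' * G * z * star b'‖ ≤ K := by
      have h1 : ‖a * (V o.1 * g o.2) * b * x‖ ≤ K := by
        refine (norm_mul_le _ _).trans ((mul_le_of_le_one_right (norm_nonneg _) hx).trans ?_)
        refine (norm_mul_le _ _).trans ((mul_le_of_le_one_right (norm_nonneg _) hb).trans ?_)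
        refine (norm_mul_le _ _).trans ((mul_le_of_le_one_left (norm_nonneg _) ha).trans ?_)
        exact (norm_mul_le _ _).trans ((mul_le_of_le_one_left (norm_nonneg _) (hV _)).trans (hg _))
      have h2 : ‖G‖ ≤ K :=
        (h.le_opNorm _).trans ((mul_le_of_le_one_left (norm_nonneg _) hh).trans h1)
      refine (norm_mul_le _ _).trans ((mul_le_of_le_one_right (norm_nonneg _)
        ((norm_star b').trans_le hb')).trans ?_)
      refine (norm_mul_le _ _).trans ((mul_le_of_le_one_right (norm_nonneg _) hz).trans ?_)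
      exact (norm_mul_le _ _).trans ((mul_le_of_le_one_left (norm_nonneg _)
        ((norm_star a').trans_le ha')).trans h2)
    have hKc : (K : ℂ) ≠ 0 := Complex.ofReal_ne_zero.2 hK.ne'
    have h3 := crossed_pairing hτ e M o (G := (K : ℂ)⁻¹ • (star a' * G * z * star b')) (by
      rw [norm_smul, norm_inv, Complex.norm_real, Real.norm_eq_abs, abs_of_pos hK]
      exact (inv_mul_le_iff₀ hK).2 (by rwa [mul_one]))
    rw [mul_smul_comm, map_smul, norm_smul, norm_inv, Complex.norm_real, Real.norm_eq_abs,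
      abs_of_pos hK, inv_mul_le_iff₀ hK] at h3
    rw [e1]
    exact h3.trans_eq (by ring)
  have htail : ∀ o : O, ‖τ (z * (star (a' * Z o * b') * h (y o)))‖ ≤
      √(sqn τ (Z o)) * √(sqn τ (h (y o))) := fun o =>
    (norm_pairing_le hτ hz _ _).trans
      (mul_le_mul_of_nonneg_right (Real.sqrt_le_sqrt (sqn_sandwich_le hτ ha' hb' _))
        (Real.sqrt_nonneg _))
  have hsplit : ∀ o : O, a * (lin e (pauliC o.1) * gam e c o.2.1 o.2.2) * b * x =
      a * (V o.1 * g o.2) * b * x + y o := fun o => by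
    simp only [hy, hD, V, mul_sub, sub_mul]
    abel
  have hlg : ∑ o, sqn τ (h (y o)) ≤ 6 * (2 + δ * N) / K ^ 2 * Fintype.card O := by
    have hbx : ‖b * x‖ ≤ 1 := norm_mul_le_one hb hx
    have h1 : ‖∑ o, star (y o) * y o‖ ≤ Fintype.card P * ((16 : ℝ) ^ N * ((2 + δ * N) / K ^ 2)) := by
      rw [Fintype.sum_prod_type]
      refine (norm_sum_le _ _).trans ((Finset.sum_le_card_nsmul _ _ _ fun s _ => ?_).trans_eq
        (by rw [nsmul_eq_mul, card_univ]))
      have e2 : ∀ r, y (s, r) = a * V s * D r * (b * x) := fun r => by simp only [hy, mul_assoc]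
      simp only [e2]
      exact (norm_sum_conj_le _ _ (norm_mul_le_one ha (hV s)) hbx D).trans hD1
    have h2 : ‖∑ o, y o * star (y o)‖ ≤ Fintype.card P * ((16 : ℝ) ^ N * ((2 + δ * N) / K ^ 2)) := by
      rw [Fintype.sum_prod_type]
      refine (norm_sum_le _ _).trans ((Finset.sum_le_card_nsmul _ _ _ fun s _ => ?_).trans_eq
        (by rw [nsmul_eq_mul, card_univ]))
      have e2 : ∀ r, y (s, r) * star (y (s, r)) = star (star (b * x) * star (D r) * star (a * V s)) *
          (star (b * x) * star (D r) * star (a * V s)) := fun r => by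
        simp only [hy, star_mul, star_star, mul_assoc]
      simp only [e2]
      refine (norm_sum_conj_le _ _ ((norm_star _).trans_le hbx)
        ((norm_star _).trans_le (norm_mul_le_one ha (hV s))) fun r => star (D r)).trans ?_
      simpa only [star_star] using hD2
    refine (small_lg hτ hh y).trans ((mul_le_mul_of_nonneg_left (add_le_add h1 h2) (by norm_num)).trans_eq ?_)
    rw [hcard]
    simp only [P, Fintype.card_prod, Fintype.card_fun, Fintype.card_fin]
    push_cast
    rw [show (64 : ℝ) ^ N = 4 ^ N * 16 ^ N by rw [← mul_pow]; norm_num]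
    ring
  calc _ ≤ ∑ o, (K / √N * √(sqn τ (Z o)) + √(sqn τ (Z o)) * √(sqn τ (h (y o)))) := by
        refine sum_le_sum fun o _ => ?_
        rw [hsplit, map_add, mul_add, mul_add, map_add]
        exact (norm_add_le _ _).trans (add_le_add (hmain o) (htail o))
    _ ≤ K / √N * Fintype.card O +
        √(Fintype.card O : ℝ) * (√(6 * (2 + δ * N) / K ^ 2 * Fintype.card O)) := by
        rw [sum_add_distrib, ← Finset.mul_sum]
        refine add_le_add (mul_le_mul_of_nonneg_left ((sum_sqrt_le (fun o => hτ.sqn_nonneg _)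
          hZ).trans_eq (Real.mul_self_sqrt (Nat.cast_nonneg _))) (by positivity)) ?_
        refine (Real.sum_sqrt_mul_sqrt_le univ (fun o => hτ.sqn_nonneg _)
          (fun o => hτ.sqn_nonneg _)).trans ?_
        gcongr
    _ = _ := by
        rw [Real.sqrt_mul (by positivity), Real.sqrt_div (by positivity), Real.sqrt_sq hK.le]
        linear_combination (√(6 * (2 + δ * N)) / K) *
          Real.mul_self_sqrt (Nat.cast_nonneg (α := ℝ) (Fintype.card O))

theorem norm_term_self_le (e : MU A N) (hτ : IsTr τ) {h : A →L[ℂ] A} (hh : ‖h‖ ≤ 1) {z x : A}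
    (hz : ‖z‖ ≤ 1) (hx : ‖x‖ ≤ 1) {c : Fin n → A} (hc : ∀ i, c i ∈ unitary A) {δ : ℝ}
    (hδ : 0 ≤ δ) (hs : ∀ i, Spread e δ (c i)) {K : ℝ} (hK : 0 < K) {σ : Equiv.Perm (Fin n)}
    (hσ : σ ≠ 1) :
    ‖term e τ h z x c σ σ‖ ≤ K / √N + √(6 * (2 + δ * N)) / K := by
  classical
  obtain ⟨i, j, hji, hrev⟩ := exists_descent hσ
  have hij : i < j := by rw [Fin.lt_def]; omega
  set P := Fin N × (Fin N → Fin 4)
  set O := P × (Fin N → Fin 4) × (Fin N → Fin 4)
  let t : (Fin n → P) → O → Fin N → Fin n → Fin N × Fin N → ℂ := fun S o k m y =>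
    if m = i then pairL o k y else if m = j then pairR o k y else pauliC (S m) y.1 y.2
  let T : (Fin n → P) × O → (Fin n → Fin N) × (Fin n → Fin N) → ℂ := fun o pq =>
    ∑ k, ∏ m, t o.1 o.2 k m (pq.1 m, pq.2 m)
  let f : Fin n → P → Fin N × Fin N → ℂ := fun m s y =>
    if m = i ∨ m = j then 1 else pauliC s y.1 y.2
  have hTeq : ∀ o pq, T o pq = (∏ m, f m (o.1 m) (pq.1 m, pq.2 m)) *
      pairC o.2 (pq.1 i, pq.2 i) (pq.1 j, pq.2 j) := fun o pq => by
    simp only [T]
    rw [pairC_eq_sum, Finset.mul_sum]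
    refine sum_congr rfl fun k _ => ?_
    rw [prod_two hij.ne, prod_two hij.ne fun m => f m (o.1 m) (pq.1 m, pq.2 m)]
    simp only [t, f, if_true, hij.ne', if_false, true_or, or_true, one_mul]
    rw [mul_comm]
    refine congrArg (· * _) (prod_congr rfl fun m hm => ?_)
    simp only [mem_compl, mem_insert, mem_singleton, not_or] at hm
    simp [hm.1, hm.2]
  let g : Fin n → ℂ := fun m => (4 : ℂ) ^ N * if m = i ∨ m = j then (N : ℂ) else 1
  set κ : ℂ := (∏ m, g m) * ((64 : ℂ) ^ N / N) with hκ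
  have hT : ∀ a b, ∑ o, conj (T o a) * T o b = if a = b then κ else 0 := by
    intro a b
    let bl : (Fin n → Fin N) × (Fin n → Fin N) → Fin n → Fin N × Fin N := fun pq m =>
      if m = i ∨ m = j then (0, 0) else (pq.1 m, pq.2 m)
    have hfb : ∀ pq m s, f m s (pq.1 m, pq.2 m) = f m s (bl pq m) := fun pq m s => by
      simp only [f, bl]; split <;> rfl
    rw [Fintype.sum_congr _ (fun o : (Fin n → P) × O =>
      (conj (∏ m, f m (o.1 m) (bl a m)) * ∏ m, f m (o.1 m) (bl b m)) *
        (conj (pairC o.2 (a.1 i, a.2 i) (a.1 j, a.2 j)) * pairC o.2 (b.1 i, b.2 i) (b.1 j, b.2 j)))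
      fun o => by simp only [hTeq, hfb, map_mul]; ring]
    rw [← sum_mul_sum' (fun S : Fin n → P => conj (∏ m, f m (S m) (bl a m)) * ∏ m, f m (S m) (bl b m))
      fun o : O => conj (pairC o (a.1 i, a.2 i) (a.1 j, a.2 j)) *
        pairC o (b.1 i, b.2 i) (b.1 j, b.2 j)]
    rw [sum_prod_law f g (bl a) (bl b) fun m => ?_, pair_cov]
    · by_cases hab : a = b
      · subst hab; simp [hκ]
      · rw [if_neg hab]
        simp only [ite_mul, zero_mul, mul_ite, mul_zero]
        split_ifs with h1 h2 <;> try rfl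
        refine absurd ?_ hab
        simp only [Prod.mk.injEq] at h1
        have key : ∀ m, a.1 m = b.1 m ∧ a.2 m = b.2 m := fun m => by
          rcases eq_or_ne m i with rfl | hmi
          · exact h1.1
          rcases eq_or_ne m j with rfl | hmj
          · exact h1.2
          · simpa [bl, hmi, hmj] using congrFun h2 m
        exact Prod.ext (funext fun m => (key m).1) (funext fun m => (key m).2)
    · simp only [f, g, bl]
      split_ifs with hm <;> first
        | contradiction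
        | (simp [P, mul_comm]; done)
        | (rw [pauli_cov]; simp_all [Prod.ext_iff])
  have hκN : κ * (N : ℂ) ^ n = (Fintype.card ((Fin n → P) × O) : ℂ) := by
    have hg : ∏ m, g m = ((4 : ℂ) ^ N) ^ n * (N : ℂ) ^ 2 := by
      rw [prod_mul_distrib, prod_const, card_univ, Fintype.card_fin, prod_two hij.ne]
      simp only [true_or, or_true, if_true]
      rw [prod_eq_one fun m hm => if_neg (by simpa [not_or] using hm), mul_one, sq]
    simp only [hκ, hg, O, P, Fintype.card_prod, Fintype.card_fun, Fintype.card_fin]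
    push_cast
    rw [show (64 : ℂ) ^ N = 4 ^ N * (4 ^ N * 4 ^ N) by rw [← mul_pow, ← mul_pow]; norm_num,
      mul_pow]
    field_simp
  let u : (Fin n → P) → Fin n → A := fun S m => lin e (pauliC (S m))
  have hu : ∀ S m, ‖u S m‖ ≤ 1 := fun S m => norm_le_one_of_unitary (pauli_mem_unitary e _)
  have hc1 : ∀ m, ‖c m‖ ≤ 1 := fun m => norm_le_one_of_unitary (hc m)
  choose a m b ha _ hb hmj hfac using fun S =>
    exists_factor c (u S) hc1 hij fun k _ _ => hu S k
  choose a' M b' ha' hM hb' _ hfac' using fun S : Fin n → P =>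
    exists_factor c (u S ∘ σ) hc1 hrev fun k _ _ => hu S (σ k)
  have hR : ∀ o, ∑ pq, T o pq • wordE e c pq.1 pq.2 =
      a o.1 * (lin e (pauliC o.2.1) * gam e (c j) o.2.2.1 o.2.2.2) * b o.1 := fun o => by
    simp only [T, Finset.sum_smul]
    rw [Finset.sum_comm, ← pair_straight, Finset.mul_sum, Finset.sum_mul]
    refine sum_congr rfl fun k _ => ?_
    rw [sum_pairs e c (t o.1 o.2 k)]
    have hup : (fun r => lin e fun p q => t o.1 o.2 k r (p, q)) =
        Function.update (Function.update (u o.1) i (lin e fun p q => pairL o.2 k (p, q))) j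
          (lin e fun p q => pairR o.2 k (p, q)) := by
      funext r
      rcases eq_or_ne r j with rfl | hrj
      · simp [t, hij.ne']
      rcases eq_or_ne r i with rfl | hri
      · simp [t, hrj]
      · simp only [t, u, Function.update_of_ne hrj, Function.update_of_ne hri, if_neg hri, if_neg hrj]
    rw [hup, hfac, hmj o.1 hji]
    simp only [mul_assoc]
  have hY : ∀ o, ∑ pq, T o pq • wordE e c (pq.1 ∘ σ) (pq.2 ∘ σ) =
      a' o.1 * (∑ k, lin e (fun p q => pairR o.2 k (p, q)) * M o.1 *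
        lin e (fun p q => pairL o.2 k (p, q))) * b' o.1 := fun o => by
    simp only [T, Finset.sum_smul]
    rw [Finset.sum_comm, Finset.mul_sum, Finset.sum_mul]
    refine sum_congr rfl fun k _ => ?_
    rw [sum_pairs_perm e c σ (t o.1 o.2 k)]
    have hup : (fun r => lin e fun p q => t o.1 o.2 k (σ r) (p, q)) =
        Function.update (Function.update (u o.1 ∘ σ) (σ.symm j) (lin e fun p q => pairR o.2 k (p, q)))
          (σ.symm i) (lin e fun p q => pairL o.2 k (p, q)) := by
      funext r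
      rcases eq_or_ne r (σ.symm i) with rfl | hri
      · simp [t]
      rcases eq_or_ne r (σ.symm j) with rfl | hrj
      · simp [t, hri, hij.ne']
      · have h1 : σ r ≠ i := fun h0 => hri (by simp [← h0])
        have h2 : σ r ≠ j := fun h0 => hrj (by simp [← h0])
        simp only [t, u, Function.update_of_ne hrj, Function.update_of_ne hri, if_neg h1, if_neg h2,
          Function.comp_apply]
    rw [hup, hfac']
    simp only [mul_assoc]
  have hsc := congrArg norm (scaled_term_eq e τ h z x c σ σ T hT)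
  rw [hκN, norm_mul, Complex.norm_natCast] at hsc
  refine le_of_mul_le_mul_left ?_ (Nat.cast_pos.2 (Fintype.card_pos (α := (Fin n → P) × O)))
  rw [hsc]
  refine (norm_sum_le _ _).trans ?_
  simp only [hR, hY]
  rw [Fintype.sum_prod_type]
  refine (Finset.sum_le_card_nsmul _ _ _ fun S _ =>
    pair_bound e hτ hh hz hx (hc j) hδ (hs j) hK (ha S) (hb S) (ha' S) (hM S) (hb' S)).trans_eq ?_
  rw [nsmul_eq_mul, card_univ]
  simp only [O, P, Fintype.card_prod, Nat.cast_mul]
  ring

end Vale.Agent.P082.Full
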