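import Vale.Agent.P082.Full.Haar
import Vale.Agent.P082.Full.Term
import Vale.Agent.P082.Full.Word

/-!
P082: a word in one random unitary acts like independent averages.
-/

open Finset MeasureTheory
open scoped ComplexConjugate

namespace Vale.Agent.P082.Full

variable {A : Type*} [CStarAlgebra A] {N : ℕ}

/-- The element of the matrix algebra with the given matrix. -/
noncomputable def emb (e : MU A N) (U : UN N) : A := lin e (U : Matrix (Fin N) (Fin N) ℂ)

theorem emb_mem_unitary (e : MU A N) (U : UN N) : emb e U ∈ unitary A := by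
  refine e.lin_mem_unitary (fun a b => ?_) fun a b => ?_
  · have h := congrFun (congrFun (Matrix.UnitaryGroup.star_mul_self U) a) b
    simpa [Matrix.mul_apply, Matrix.one_apply] using h
  · have h := congrFun (congrFun (Matrix.mem_unitaryGroup_iff.1 U.2) a) b
    simpa [Matrix.mul_apply, Matrix.one_apply] using h

theorem star_emb (e : MU A N) (U : UN N) :
    star (emb e U) = lin e fun a b => conj ((U : Matrix (Fin N) (Fin N) ℂ) b a) :=
  e.star_lin _

/-- The word `c₁ V c₂ V ⋯`. -/
noncomputable def wordU (c : List (unitary A)) (V : A) : A :=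
  (c.map fun a : unitary A => (a : A) * V).prod

theorem continuous_emb (e : MU A N) : Continuous (emb e) := by
  show Continuous fun U : UN N => ∑ a, ∑ b, (U : Matrix (Fin N) (Fin N) ℂ) a b • e.e a b
  exact continuous_finsetSum _ fun a _ => continuous_finsetSum _ fun b _ =>
    ((continuous_subtype_val.matrix_elem a b)).smul
      continuous_const

theorem continuous_sample_word {τ : A →ₗ[ℂ] ℂ} (hτ : IsTr τ) (h : A →L[ℂ] A) (z x : A)
    (c : List (unitary A)) {V : UN N → A} (hV : Continuous V) :
    Continuous fun U => sample τ h z x (wordU c (V U)) := by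
  have hW : Continuous fun U => wordU c (V U) := by
    induction c with
    | nil => exact continuous_const
    | cons a c ih =>
      show Continuous fun U => (a : A) * V U * wordU c (V U)
      exact (continuous_const.mul hV).mul ih
  have hτc : Continuous τ :=
    (τ.mkContinuous 1 fun a => by simpa using hτ.norm_apply_le a).continuous
  exact hτc.comp (continuous_const.mul
    ((continuous_star.comp hW).mul (h.continuous.comp (hW.mul continuous_const))))

theorem continuous_sample (e : MU A N) (τ : A →ₗ[ℂ] ℂ) {h : A →L[ℂ] A} (hτ : IsTr τ) (z x : A)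
    (c : List (unitary A)) :
    Continuous (fun U : UN N => sample τ h z x (wordU c (emb e U))) ∧
      Continuous (fun U : UN N => sample τ h z x (wordU c (star (emb e U)))) :=
  ⟨continuous_sample_word hτ h z x c (continuous_emb e),
    continuous_sample_word hτ h z x c (continuous_star.comp (continuous_emb e))⟩

theorem wordU_ofFn {n : ℕ} (cu : Fin n → unitary A) (V : A) :
    wordU (List.ofFn cu) V = wd (fun i => (cu i : A)) fun _ => V := by
  rw [wordU, List.map_ofFn]
  rfl

/-- The sample at a word of matrices, expanded in matrix units. -/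
theorem sample_wd_lin (e : MU A N) (τ : A →ₗ[ℂ] ℂ) (h : A →L[ℂ] A) (z x : A) {n : ℕ}
    (c : Fin n → A) (t : Fin N → Fin N → ℂ) :
    sample τ h z x (wd c fun _ => lin e t) =
      ∑ p : Fin n → Fin N, ∑ q : Fin n → Fin N, ∑ r : Fin n → Fin N, ∑ s : Fin n → Fin N,
        (∏ i, conj (t (r i) (s i)) * t (p i) (q i)) *
          τ (z * (star (wordE e c r s) * h (wordE e c p q * x))) := by
  rw [sample, wd_lin e c fun _ => t]
  simp only [star_sum, star_smul, Complex.star_def, map_prod, Finset.sum_mul, Finset.mul_sum,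
    smul_mul_assoc, map_sum, map_smul, mul_smul_comm, smul_eq_mul,
    Finset.prod_mul_distrib]
  exact Finset.sum_congr rfl fun p _ => Finset.sum_congr rfl fun q _ => Finset.sum_congr rfl
    fun r _ => Finset.sum_congr rfl fun s _ => by ring

/-- The moment formula turns an integral of samples into the pairing terms. -/
theorem integral_sample (e : MU A N) (τ : A →ₗ[ℂ] ℂ) (h : A →L[ℂ] A) (z x : A) {n : ℕ}
    (c : Fin n → A) (t : UN N → Fin N → Fin N → ℂ)
    (ht : ∀ a b, Continuous fun U => t U a b) (α : Equiv.Perm (Fin n) → Equiv.Perm (Fin n) → ℝ)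
    (hα : ∀ p q r s : Fin n → Fin N,
      ∫ U, (∏ i, conj (t U (r i) (s i)) * t U (p i) (q i)) ∂haar N = ((N : ℂ) ^ n)⁻¹ *
        ∑ σ : Equiv.Perm (Fin n), ∑ π : Equiv.Perm (Fin n),
          if r = p ∘ σ ∧ s = q ∘ π then (α σ π : ℂ) else 0) :
    ∫ U, sample τ h z x (wd c fun _ => lin e (t U)) ∂haar N =
      ∑ σ, ∑ π, (α σ π : ℂ) * term e τ h z x c σ π := by
  classical
  have hi : ∀ (p q r s : Fin n → Fin N) (w : ℂ),
      Integrable (fun U => (∏ i, conj (t U (r i) (s i)) * t U (p i) (q i)) * w) (haar N) :=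
    fun p q r s w => ((continuous_finsetProd _ fun i _ =>
      (Complex.continuous_conj.comp (ht _ _)).mul (ht _ _)).mul
        continuous_const).integrable_of_hasCompactSupport (HasCompactSupport.of_compactSpace _)
  simp only [sample_wd_lin]
  rw [integral_finsetSum _ fun p _ => integrable_finsetSum _ fun q _ =>
    integrable_finsetSum _ fun r _ => integrable_finsetSum _ fun s _ => hi p q r s _]
  rw [Finset.sum_congr rfl fun p _ => integral_finsetSum _ fun q _ =>
    integrable_finsetSum _ fun r _ => integrable_finsetSum _ fun s _ => hi p q r s _]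
  rw [Finset.sum_congr rfl fun p _ => Finset.sum_congr rfl fun q _ => integral_finsetSum _
    fun r _ => integrable_finsetSum _ fun s _ => hi p q r s _]
  rw [Finset.sum_congr rfl fun p _ => Finset.sum_congr rfl fun q _ => Finset.sum_congr rfl
    fun r _ => integral_finsetSum _ fun s _ => hi p q r s _]
  simp only [integral_mul_const, hα, term, Finset.mul_sum, Finset.sum_mul, ite_mul, mul_ite,
    zero_mul, mul_zero, ite_and]
  calc _ = ∑ p : Fin n → Fin N, ∑ q : Fin n → Fin N, ∑ σ : Equiv.Perm (Fin n),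
        ∑ π : Equiv.Perm (Fin n), ((N : ℂ) ^ n)⁻¹ * (α σ π : ℂ) *
          τ (z * (star (wordE e c (p ∘ σ) (q ∘ π)) * h (wordE e c p q * x))) := by
        refine Finset.sum_congr rfl fun p _ => Finset.sum_congr rfl fun q _ => ?_
        rw [Finset.sum_congr rfl fun r _ => Finset.sum_comm, Finset.sum_comm]
        refine Finset.sum_congr rfl fun σ _ => ?_
        rw [Finset.sum_congr rfl fun r _ => Finset.sum_comm, Finset.sum_comm]
        refine Finset.sum_congr rfl fun π _ => ?_
        simp only [Finset.sum_ite_irrel, Finset.sum_const_zero, Finset.sum_ite_eq',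
          Finset.mem_univ, if_true]
    _ = ∑ σ, ∑ π, ∑ p, ∑ q, _ := by
        rw [Finset.sum_congr rfl fun p _ => Finset.sum_comm, Finset.sum_comm]
        refine Finset.sum_congr rfl fun σ _ => ?_
        rw [Finset.sum_congr rfl fun p _ => Finset.sum_comm, Finset.sum_comm]
    _ = _ := Finset.sum_congr rfl fun σ _ => Finset.sum_congr rfl fun π _ =>
        Finset.sum_congr rfl fun p _ => Finset.sum_congr rfl fun q _ => by ring

/-- Independent averages are the trivial pairing. -/
theorem iter_eq (e : MU A N) : ∀ {n : ℕ} (cu : Fin n → unitary A) (h : A →L[ℂ] A) (x : A),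
    iter e (List.ofFn cu) h x = ((N : ℂ) ^ n)⁻¹ • ∑ p : Fin n → Fin N, ∑ q : Fin n → Fin N,
      star (wordE e (fun i => (cu i : A)) p q) * h (wordE e (fun i => (cu i : A)) p q * x)
  | 0, cu, h, x => by simp [iter, wordE]
  | n + 1, cu, h, x => by
    have ih := iter_eq e (fun i => cu i.succ) (avg e (rot (cu 0) h)) x
    rw [List.ofFn_succ, iter, List.foldl_cons]
    refine ih.trans ?_
    have hs : ∀ F : (Fin (n + 1) → Fin N) → A,
        ∑ p, F p = ∑ a, ∑ p : Fin n → Fin N, F (Fin.cons a p) := fun F => by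
      rw [← (Fin.consEquiv fun _ : Fin (n + 1) => Fin N).sum_comp, Fintype.sum_prod_type]
      rfl
    simp only [hs, wordE_eq, wd_succ, Fin.cons_zero, Fin.cons_succ]
    simp only [avg, smul_apply, _root_.sum_apply, ContinuousLinearMap.comp_apply, mulL_apply, rot_apply,
      Finset.mul_sum, mul_smul_comm, ← Finset.smul_sum, smul_smul, star_mul, e.star_e, mul_assoc]
    rw [← mul_inv, ← pow_succ]
    congr 1
    rw [Finset.sum_congr rfl fun p _ => Finset.sum_comm, Finset.sum_comm]
    refine Finset.sum_congr rfl fun a _ => Finset.sum_congr rfl fun p _ => ?_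
    exact Finset.sum_comm

theorem crossing (n : ℕ) {ε : ℝ} (hε : 0 < ε) : ∃ δ > (0 : ℝ), ∃ N0 : ℕ,
    ∀ {A : Type*} [CStarAlgebra A] {N : ℕ} [NeZero N], N0 ≤ N → ∀ (e : MU A N)
      (c : List (unitary A)), c.length ≤ n → (∀ a ∈ c, Spread e δ (a : A)) →
      ∀ (τ : A →ₗ[ℂ] ℂ), IsTr τ → ∀ h : A →L[ℂ] A, ‖h‖ ≤ 1 → ∀ z x : A, ‖z‖ ≤ 1 → ‖x‖ ≤ 1 →
        ‖(∫ U, sample τ h z x (wordU c (emb e U)) ∂haar N) - τ (z * iter e c h x)‖ ≤ ε ∧
        ‖(∫ U, sample τ h z x (wordU c (star (emb e U))) ∂haar N) - τ (z * iter e c h x)‖ ≤ ε := by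
  classical
  set θ : ℝ := ε / (12 * n.factorial) with hθ
  have hθ0 : 0 < θ := by positivity
  choose N1 hN1 using fun m => haar_moment m (half_pos hε)
  obtain ⟨N2, hN2⟩ := exists_nat_ge (1 / θ ^ 4)
  refine ⟨θ ^ 4, by positivity, max N2 ((Finset.range (n + 1)).sup N1), ?_⟩
  intro A _ N _ hN e c hc hs τ hτ h hh z x hz hx
  obtain ⟨m, cu, rfl⟩ : ∃ m, ∃ cu : Fin m → unitary A, c = List.ofFn cu :=
    ⟨c.length, c.get, (List.ofFn_get c).symm⟩
  rw [List.length_ofFn] at hc
  obtain ⟨α, hα, hα1, hα2⟩ := hN1 m N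
    (((Finset.le_sup (Finset.mem_range.2 (Nat.lt_succ_of_le hc))).trans (le_max_right _ _)).trans hN)
  set T : Equiv.Perm (Fin m) → Equiv.Perm (Fin m) → ℂ :=
    term e τ h z x fun i => (cu i : A) with hT
  have hiter : τ (z * iter e (List.ofFn cu) h x) = T 1 1 := by
    simp [iter_eq, hT, term, map_sum, Finset.mul_sum]
  have hN0 : (0 : ℝ) < N := Nat.cast_pos.2 (Nat.pos_of_ne_zero (NeZero.ne N))
  have hθN : 1 ≤ θ ^ 4 * N := by
    have : (N2 : ℝ) ≤ N := by exact_mod_cast (le_max_left _ _).trans hN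
    rw [div_le_iff₀ (by positivity)] at hN2
    nlinarith [pow_pos hθ0 4]
  have hbad : ∀ σ, σ ≠ 1 → ‖T σ σ‖ ≤ 6 * θ := fun σ hσ => by
    refine (norm_term_self_le e hτ hh hz hx (fun i => (cu i).2) (by positivity)
      (fun i => hs _ (List.mem_ofFn.2 ⟨i, rfl⟩)) (K := √(N : ℝ) * θ) (by positivity) hσ).trans ?_
    have h1 : √(N : ℝ) * θ / √(N : ℝ) = θ := mul_div_cancel_left₀ θ (by positivity)
    have h2 : √(6 * (2 + θ ^ 4 * N)) / (√(N : ℝ) * θ) ≤ 5 * θ := by
      rw [div_le_iff₀ (by positivity), Real.sqrt_le_iff]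
      refine ⟨by positivity, ?_⟩
      rw [show (5 * θ * (√(N : ℝ) * θ)) ^ 2 = 25 * θ ^ 4 * √(N : ℝ) ^ 2 by ring,
        Real.sq_sqrt hN0.le]
      linarith
    linarith
  have key : ‖(∑ σ, ∑ π, (α σ π : ℂ) * T σ π) - T 1 1‖ ≤ ε := by
    have e1 : (∑ σ, ∑ π, (α σ π : ℂ) * T σ π) - T 1 1 =
        (∑ σ, ∑ π, (((α σ π - if σ = π then 1 else 0) : ℝ) : ℂ) * T σ π) +
          ∑ σ ∈ Finset.univ.erase 1, T σ σ := by
      rw [Finset.sum_erase_eq_sub (Finset.mem_univ _)]
      simp [sub_mul, Finset.sum_sub_distrib, apply_ite (Complex.ofReal), ite_mul]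
    rw [e1]
    refine (norm_add_le _ _).trans ((add_le_add (le_trans ?_ hα) ?_).trans (add_halves ε).le)
    · refine (norm_sum_le _ _).trans (Finset.sum_le_sum fun σ _ => (norm_sum_le _ _).trans
        (Finset.sum_le_sum fun π _ => ?_))
      rw [norm_mul, Complex.norm_real, Real.norm_eq_abs]
      exact mul_le_of_le_one_right (abs_nonneg _)
        (norm_term_le e hτ hh hz hx (fun i => (cu i).2) σ π)
    · refine (norm_sum_le _ _).trans ((Finset.sum_le_card_nsmul _ _ _ fun σ hσ =>
        hbad σ (Finset.ne_of_mem_erase hσ)).trans ?_)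
      have h1 : ((Finset.univ.erase (1 : Equiv.Perm (Fin m))).card : ℝ) ≤ n.factorial := by
        refine Nat.cast_le.2 ((Finset.card_le_univ _).trans ?_)
        rw [Fintype.card_perm, Fintype.card_fin]
        exact Nat.factorial_le hc
      rw [nsmul_eq_mul]
      refine (mul_le_mul_of_nonneg_right h1 (by positivity)).trans (le_of_eq ?_)
      rw [hθ]; field_simp; ring
  have hcont : ∀ a b : Fin N, Continuous fun U : UN N => (U : Matrix (Fin N) (Fin N) ℂ) a b :=
    fun a b => (continuous_subtype_val.matrix_elem a b)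
  rw [hiter]
  constructor
  · simp only [wordU_ofFn, emb]
    rw [integral_sample e τ h z x _ (fun U a b => (U : Matrix (Fin N) (Fin N) ℂ) a b) hcont α hα1]
    exact key
  · simp only [wordU_ofFn, star_emb]
    rw [integral_sample e τ h z x _ (fun U a b => conj ((U : Matrix (Fin N) (Fin N) ℂ) b a))
      (fun a b => Complex.continuous_conj.comp (hcont b a)) α
      fun p q r s => by simpa only [Complex.conj_conj] using hα2 p q r s]
    exact key

end Vale.Agent.P082.Full
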