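import Vale.Agent.P082.Fourier

/-!
P082: the vocabulary of the averaging argument in a C*-algebra with a tracial functional and
matrix units.
-/

open Finset
open scoped ComplexConjugate

namespace Vale.Agent.P082.Full

variable {A : Type*} [CStarAlgebra A]

/-- A positive tracial functional of mass at most one. -/
structure IsTr (τ : A →ₗ[ℂ] ℂ) : Prop extends Fourier.IsTrace τ where
  le_one : (τ 1).re ≤ 1

/-- Left multiplication. -/
noncomputable def mulL (a : A) : A →L[ℂ] A := ContinuousLinearMap.mul ℂ A a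

/-- The rotate of `h` by the unitary `u`, namely `x ↦ u* h (u x)`. -/
noncomputable def rot (u : unitary A) (h : A →L[ℂ] A) : A →L[ℂ] A :=
  (mulL (star (u : A))).comp (h.comp (mulL (u : A)))

/-- A convex combination of rotations. -/
def IsAvg (Φ : (A →L[ℂ] A) → (A →L[ℂ] A)) : Prop :=
  ∃ (ι : Type) (_ : Fintype ι) (c : ι → ℝ) (u : ι → unitary A),
    (∀ i, 0 ≤ c i) ∧ ∑ i, c i = 1 ∧ ∀ h, Φ h = ∑ i, (c i : ℂ) • rot (u i) h

/-- The sample of `h` at the word `W`. -/
noncomputable def sample (τ : A →ₗ[ℂ] ℂ) (h : A →L[ℂ] A) (z x W : A) : ℂ :=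
  τ (z * (star W * h (W * x)))

/-- A complete system of matrix units. -/
structure MU (A : Type*) [CStarAlgebra A] (N : ℕ) where
  e : Fin N → Fin N → A
  star_e : ∀ i j, star (e i j) = e j i
  mul_e : ∀ i j k l, e i j * e k l = if j = k then e i l else 0
  sum_e : ∑ i, e i i = 1

variable {N : ℕ}

/-- The element with the given coefficients in the matrix units. -/
noncomputable def lin (e : MU A N) (t : Fin N → Fin N → ℂ) : A := ∑ a, ∑ b, t a b • e.e a b

/-- The average of the rotations by the matrix algebra. -/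
noncomputable def avg (e : MU A N) (h : A →L[ℂ] A) : A →L[ℂ] A :=
  (N : ℂ)⁻¹ • ∑ p, ∑ q, (mulL (e.e q p)).comp (h.comp (mulL (e.e p q)))

/-- Alternately rotate by the letters and average. -/
noncomputable def iter (e : MU A N) (c : List (unitary A)) (h : A →L[ℂ] A) : A →L[ℂ] A :=
  c.foldl (fun g a => avg e (rot a g)) h

/-- `N` times the conditional expectation onto the commutant of the matrix algebra. -/
noncomputable def ptr (e : MU A N) (x : A) : A := ∑ s, ∑ b, e.e s b * x * e.e b s

/-- The `q p` entry of `m`, in the commutant of the matrix algebra. -/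
noncomputable def entry (e : MU A N) (m : A) (q p : Fin N) : A := ∑ s, e.e s q * m * e.e p s

/-- The diagonal of the matrix algebra, moved by `a` or its adjoint, is spread out. -/
def Spread (e : MU A N) (δ : ℝ) (a : A) : Prop :=
  ∀ p, ‖ptr e (a * e.e p p * star a)‖ ≤ δ * N ∧ ‖ptr e (star a * e.e p p * a)‖ ≤ δ * N

/-- The algebra of `e` contains the units `q`. -/
def Refines (e : MU A N) {M : ℕ} (q : MU A M) : Prop := ∀ i j, ∃ t, q.e i j = lin e t

/-- Arbitrarily large matrix algebras containing `q` spread any finite set of unitaries. -/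
def Ample (q : MU A 2) : Prop :=
  ∀ (s : Finset (unitary A)) (δ : ℝ), 0 < δ → ∀ N0 : ℕ, ∃ N, N0 ≤ N ∧ 0 < N ∧
    ∃ e : MU A N, Refines e q ∧ ∀ a ∈ s, Spread e δ (a : A)

/-- The fourth roots of unity. -/
noncomputable def ph (k : Fin 4) : ℂ := Complex.I ^ (k : ℕ)

/-- Coefficients of the random monomial unitary `s`. -/
noncomputable def pauliC [NeZero N] (s : Fin N × (Fin N → Fin 4)) (a b : Fin N) : ℂ :=
  if a = b + s.1 then ph (s.2 b) else 0

/-- The random element of the commutant read off from `m` by two random phase vectors. -/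
noncomputable def gam (e : MU A N) (m : A) (w u : Fin N → Fin 4) : A :=
  ((Real.sqrt N : ℝ) : ℂ)⁻¹ • ∑ q, ∑ p, (conj (ph (w q)) * ph (u p)) • entry e m q p

/-- A word with matrix units in the places of the random unitary. -/
noncomputable def wordE (e : MU A N) {n : ℕ} (c : Fin n → A) (p q : Fin n → Fin N) : A :=
  (List.ofFn fun i => c i * e.e (p i) (q i)).prod

/-- The term of the pairing `σ, π` in the moment of a word. -/
noncomputable def term (e : MU A N) (τ : A →ₗ[ℂ] ℂ) (h : A →L[ℂ] A) (z x : A) {n : ℕ}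
    (c : Fin n → A) (σ π : Equiv.Perm (Fin n)) : ℂ :=
  ((N : ℂ) ^ n)⁻¹ * ∑ p : Fin n → Fin N, ∑ q : Fin n → Fin N,
    τ (z * (star (wordE e c (p ∘ σ) (q ∘ π)) * h (wordE e c p q * x)))

end Vale.Agent.P082.Full
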