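import Vale.Agent.P082.Full.TypeTwo
import Vale.Agent.P082.Units
import Vale.Agent.P082.Flat

/-!
P082: matrix algebras that spread finitely many unitaries.
-/

namespace Vale.Agent.P082.Full

universe u

variable {H : Type u} [NormedAddCommGroup H] [InnerProductSpace ℂ H] [CompleteSpace H]
  {M : VonNeumannAlgebra H}

attribute [local instance] algCStar

/-- Matrix units of operators, inside the algebra. -/
noncomputable def toMU {P : ℕ} (f : Units M P) : MU (Alg M) P where
  e i j := ⟨f.e i j, f.mem i j⟩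
  star_e i j := Subtype.ext (f.star_e i j)
  mul_e i j k l := by
    apply Subtype.ext
    have := f.mul_e i j k l
    split_ifs with h <;> simpa [h] using this
  sum_e := Subtype.ext (by simpa using f.sum_e)

theorem exists_ample (hM : VP082.Lit.IsTypeTwoOne H M) : ∃ q : MU (Alg M) 2, Ample q := by
  obtain ⟨hA, hsep⟩ := hM
  obtain ⟨f⟩ := units_of_noAbelian (A := M) hA 1
  refine ⟨toMU f, fun s δ hδ N0 => ?_⟩
  have hsep' : ∀ x ∈ M, (∀ ξ : ℕ → H, Flat.IsTraceSeq M ξ → ∀ n, x (ξ n) = 0) → x = 0 :=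
    fun x hx h => hsep x hx fun ξ hξ => h ξ ⟨hξ.1.summable, hξ.2⟩
  let L : List (H →L[ℂ] H) := s.toList.flatMap fun a : unitary (Alg M) =>
    [((a : Alg M) : H →L[ℂ] H), star ((a : Alg M) : H →L[ℂ] H)]
  have hu : ∀ a : unitary (Alg M), star ((a : Alg M) : H →L[ℂ] H) * ((a : Alg M) : H →L[ℂ] H) = 1 ∧
      ((a : Alg M) : H →L[ℂ] H) * star ((a : Alg M) : H →L[ℂ] H) = 1 := fun a =>
    ⟨congrArg Subtype.val (Unitary.coe_star_mul_self a),
      congrArg Subtype.val (Unitary.coe_mul_star_self a)⟩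
  obtain ⟨m, hm, e, href, hspread⟩ := Flat.exists_flat (P := 2 ^ 1) hA hsep' f L
    (fun b hb => by
      simp only [L, List.mem_flatMap, List.mem_cons, List.not_mem_nil, or_false] at hb
      obtain ⟨a, -, rfl | rfl⟩ := hb
      · exact ⟨(a : Alg M).2, (hu a).1⟩
      · exact ⟨star_mem (a : Alg M).2, by rw [star_star]; exact (hu a).2⟩) hδ N0
  have hN : 0 < 2 ^ 1 * 2 ^ m := by positivity
  refine ⟨2 ^ 1 * 2 ^ m, ?_, hN, toMU e, fun i j => ?_, fun a ha p => ?_⟩
  · exact hm.trans (m.lt_two_pow_self.le.trans (Nat.le_mul_of_pos_left _ (by norm_num)))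
  · refine ⟨fun a b => ∑ r, if a = finProdFinEquiv (i, r) ∧ b = finProdFinEquiv (j, r) then 1 else 0,
      Subtype.ext ?_⟩
    simp only [lin, Finset.sum_smul, ite_smul, one_smul, zero_smul, AddSubmonoidClass.coe_finsetSum,
      apply_ite Subtype.val, ZeroMemClass.coe_zero]
    rw [show ((toMU f).e i j : H →L[ℂ] H) = f.e i j from rfl, href]
    rw [Finset.sum_congr rfl fun a _ => Finset.sum_comm, Finset.sum_comm]
    refine Finset.sum_congr rfl fun r _ => ?_
    refine Eq.symm (((Fintype.sum_eq_single (finProdFinEquiv (i, r)) ?_).trans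
      (Fintype.sum_eq_single (finProdFinEquiv (j, r)) ?_)).trans ?_)
    · exact fun a ha => Finset.sum_eq_zero fun b _ => by rw [if_neg (fun h => ha h.1)]
    · exact fun b hb => by rw [if_neg (fun h => hb h.2)]
    · rw [if_pos ⟨rfl, rfl⟩]
      rfl
  · have key : ∀ b ∈ L, ∀ y : Alg M, (y : H →L[ℂ] H) = b * e.e p p * star b →
        ‖ptr (toMU e) y‖ ≤ δ * (2 ^ 1 * 2 ^ m : ℕ) := fun b hb y hy => by
      have h := hspread b hb p
      rw [norm_smul, norm_inv, Complex.norm_natCast,
        inv_mul_le_iff₀ (by exact_mod_cast hN)] at h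
      refine le_trans (le_of_eq ?_) (h.trans_eq (mul_comm _ _))
      show ‖((ptr (toMU e) y : Alg M) : H →L[ℂ] H)‖ = _
      simp [ptr, toMU, hy]
    constructor
    · refine key _ ?_ _ rfl
      simp only [L, List.mem_flatMap, List.mem_cons]
      exact ⟨a, Finset.mem_toList.2 ha, Or.inl rfl⟩
    · refine key _ ?_ _ (by rw [star_star]; rfl)
      simp only [L, List.mem_flatMap, List.mem_cons]
      exact ⟨a, Finset.mem_toList.2 ha, Or.inr (Or.inl rfl)⟩

end Vale.Agent.P082.Full
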