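import Vale.Agent.P082.Full.Defs

/-!
P082: the conjugates of two by two matrix units generate the algebra.
-/

namespace Vale.Agent.P082.Full

variable {A : Type*} [CStarAlgebra A]

open scoped ComplexStarModule

attribute [local instance] CStarAlgebra.spectralOrder CStarAlgebra.spectralOrderedRing

/-- A self-adjoint contraction of the first corner lies in `S`. -/
theorem corner_mem (q : MU A 2) (S : Subalgebra ℂ A)
    (hS : ∀ a : unitary A, ∀ i j, (a : A) * q.e i j * star (a : A) ∈ S) {c : A}
    (hc : IsSelfAdjoint c) (hn : ‖c‖ ≤ 1) (hl : q.e 0 0 * c = c) : c ∈ S := by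
  have hq : ∀ i j, q.e i j ∈ S := fun i j => by simpa using hS 1 i j
  have hr : c * q.e 0 0 = c := by simpa [hc.star_eq, q.star_e] using congrArg star hl
  set f := CFC.sqrt (1 - c ^ 2) with hf
  have hU : c + Complex.I • f ∈ unitary A :=
    IsSelfAdjoint.self_add_I_smul_cfcSqrt_sub_sq_mem_unitary c hc hn
  have hfc : f * q.e 0 0 = q.e 0 0 * f := by
    have h : Commute (1 - c ^ 2) (q.e 0 0) :=
      (Commute.one_left _).sub_left ((show Commute c (q.e 0 0) from hr.trans hl.symm).pow_left 2)
    exact (h.cfcₙ_nnreal NNReal.sqrt).eq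
  have hfs : star f = f := (CFC.sqrt_nonneg (1 - c ^ 2)).isSelfAdjoint.star_eq
  have key : ∀ U : A, U ∈ unitary A → U * q.e 0 0 = q.e 0 0 * U → U * q.e 0 0 ∈ S := fun U hU hc' => by
    set p := q.e 0 0 with hp
    have hpp : p * p = p := by rw [hp, q.mul_e, if_pos rfl]
    have hps : star p = p := by rw [hp, q.star_e]
    have hsU : star U * p = p * star U := by simpa [hps] using (congrArg star hc').symm
    have hpz : p * (1 - p) = 0 := by rw [mul_sub, mul_one, hpp, sub_self]
    have hzp : (1 - p) * p = 0 := by rw [sub_mul, one_mul, hpp, sub_self]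
    have hzz : (1 - p) * (1 - p) = 1 - p := by rw [mul_sub (1 - p), mul_one, hzp, sub_zero]
    have haU : U * p + (1 - p) ∈ unitary A := by
      refine Unitary.mem_iff.2 ⟨?_, ?_⟩
      · calc star (U * p + (1 - p)) * (U * p + (1 - p))
            = p * (star U * U) * p + p * (star U * (1 - p)) + ((1 - p) * U) * p + (1 - p) * (1 - p) := by
              simp only [star_add, star_mul, star_sub, star_one, hps, add_mul, mul_add, mul_assoc]
              abel
          _ = 1 := by
              have e1 : star U * (1 - p) = (1 - p) * star U := by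
                rw [mul_sub, mul_one, sub_mul, one_mul, hsU]
              have e2 : (1 - p) * U = U * (1 - p) := by
                rw [mul_sub, mul_one, sub_mul, one_mul, hc']
              rw [(Unitary.mem_iff.1 hU).1, e1, e2, ← mul_assoc p, hpz, mul_assoc U, hzp, hzz,
                mul_one, hpp]
              simp
      · calc (U * p + (1 - p)) * star (U * p + (1 - p))
            = U * (p * p) * star U + U * (p * (1 - p)) + (1 - p) * p * star U + (1 - p) * (1 - p) := by
              simp only [star_add, star_mul, star_sub, star_one, hps, add_mul, mul_add, mul_assoc]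
              abel
          _ = 1 := by
              rw [hpp, hpz, hzp, hzz, hc', mul_assoc, (Unitary.mem_iff.1 hU).2]
              simp
    have h := S.mul_mem (hS ⟨_, haU⟩ 0 1) (hq 1 0)
    have e : (U * p + (1 - p)) * q.e 0 1 * star (U * p + (1 - p)) * q.e 1 0 = U * p := by
      have e01 : p * q.e 0 1 = q.e 0 1 := by rw [hp, q.mul_e, if_pos rfl]
      have ep : q.e 0 1 * p = 0 := by rw [hp, q.mul_e, if_neg (by decide)]
      have h0 : (1 - p) * q.e 0 1 = 0 := by rw [sub_mul, one_mul, e01, sub_self]
      have h1 : (U * p + (1 - p)) * q.e 0 1 = U * q.e 0 1 := by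
        rw [add_mul, mul_assoc, e01, h0, add_zero]
      have h2 : q.e 0 1 * star (U * p + (1 - p)) = q.e 0 1 := by
        rw [star_add, star_mul, star_sub, star_one, hps, mul_add, ← mul_assoc, ep, zero_mul,
          zero_add, mul_sub, mul_one, ep, sub_zero]
      rw [h1, mul_assoc U, h2, mul_assoc, q.mul_e, if_pos rfl]
    exact e ▸ h
  have h1 := key _ hU (by
    rw [add_mul, mul_add, smul_mul_assoc, mul_smul_comm, hl, hr, hfc])
  have h2 := key _ (Unitary.star_mem hU) (by
    simp only [star_add, star_smul, hc.star_eq, hfs]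
    rw [add_mul, mul_add, smul_mul_assoc, mul_smul_comm, hl, hr, hfc])
  have h3 := S.smul_mem (S.add_mem h1 h2) (2⁻¹ : ℂ)
  rw [← add_mul, star_add, star_smul, hc.star_eq, hfs] at h3
  have e : (2⁻¹ : ℂ) • ((c + Complex.I • f + (c + star Complex.I • f)) * q.e 0 0) = c := by
    rw [Complex.star_def, Complex.conj_I, add_mul, add_mul, add_mul, hr]
    simp only [neg_smul, neg_mul]
    module
  rwa [e] at h3

theorem eq_top_of_conj (q : MU A 2) (S : Subalgebra ℂ A)
    (hS : ∀ a : unitary A, ∀ i j, (a : A) * q.e i j * star (a : A) ∈ S) : S = ⊤ := by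
  have hq : ∀ i j, q.e i j ∈ S := fun i j => by simpa using hS 1 i j
  have hp : q.e 0 0 * q.e 0 0 = q.e 0 0 := by rw [q.mul_e, if_pos rfl]
  have sa : ∀ c : A, IsSelfAdjoint c → q.e 0 0 * c = c → c ∈ S := fun c hc hl => by
    set r := ‖c‖ + 1 with hr
    have hr0 : 0 < r := by positivity
    have h := corner_mem q S hS (c := ((r⁻¹ : ℝ) : ℂ) • c)
      (by rw [IsSelfAdjoint, star_smul, hc.star_eq, Complex.star_def, Complex.conj_ofReal])
      (by
        rw [norm_smul, Complex.norm_real, Real.norm_eq_abs, abs_inv, abs_of_pos hr0,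
          inv_mul_le_iff₀ hr0]
        linarith)
      (by rw [mul_smul_comm, hl])
    have h' := S.smul_mem h ((r : ℝ) : ℂ)
    rwa [smul_smul, ← Complex.ofReal_mul, mul_inv_cancel₀ hr0.ne', Complex.ofReal_one,
      one_smul] at h'
  have corner : ∀ y : A, q.e 0 0 * y = y → y * q.e 0 0 = y → y ∈ S := fun y hl hr => by
    have hl' : q.e 0 0 * star y = star y := by simpa [q.star_e] using congrArg star hr
    rw [← realPart_add_I_smul_imaginaryPart y]
    refine S.add_mem (sa _ (ℜ y).2 ?_) (S.smul_mem (sa _ (ℑ y).2 ?_) _)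
    · rw [realPart_apply_coe, mul_smul_comm, mul_add, hl, hl']
    · rw [imaginaryPart_apply_coe, mul_smul_comm, mul_smul_comm, mul_sub, hl, hl']
  refine eq_top_iff.2 fun x _ => ?_
  have e : x = ∑ i, ∑ j, q.e i 0 * (q.e 0 i * x * q.e j 0) * q.e 0 j := by
    calc x = (∑ i, q.e i i) * x * ∑ j, q.e j j := by rw [q.sum_e]; simp
      _ = ∑ i, ∑ j, q.e i i * x * q.e j j := by
          rw [Finset.sum_mul, Finset.sum_mul]
          exact Finset.sum_congr rfl fun i _ => Finset.mul_sum _ _ _
      _ = _ := Finset.sum_congr rfl fun i _ => Finset.sum_congr rfl fun j _ => by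
          rw [show q.e i i = q.e i 0 * q.e 0 i by rw [q.mul_e, if_pos rfl],
            show q.e j j = q.e j 0 * q.e 0 j by rw [q.mul_e, if_pos rfl]]
          simp only [mul_assoc]
  rw [e]
  refine S.sum_mem fun i _ => S.sum_mem fun j _ => S.mul_mem (S.mul_mem (hq _ _) ?_) (hq _ _)
  refine corner _ ?_ ?_
  · rw [← mul_assoc, ← mul_assoc, q.mul_e, if_pos rfl]
  · rw [mul_assoc, q.mul_e, if_pos rfl]

end Vale.Agent.P082.Full
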