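import Mathlib

/-!
P082: mixed moments of the unitary group in the stable range. The commutant of the tensor powers
consists of the permutations; left invariance and the unitarity relations then fix the moments
through the inverse of the Gram matrix of the permutations, which is nearly the identity.
-/

open Finset MeasureTheory
open scoped ComplexConjugate

namespace Vale.Agent.P082.Full

/-- The unitary group of size `N`. -/
abbrev UN (N : ℕ) := Matrix.unitaryGroup (Fin N) ℂ

variable {N : ℕ}

instance : CompactSpace (UN N) := by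
  refine isCompact_iff_compactSpace.1
    (?_ : IsCompact (↑(UN N) : Set (Matrix (Fin N) (Fin N) ℂ)))
  have hc : IsCompact (X := Matrix (Fin N) (Fin N) ℂ) (Set.univ.pi fun _ : Fin N => Set.univ.pi fun _ : Fin N =>
      Metric.closedBall (0 : ℂ) 1) :=
    isCompact_univ_pi fun _ => isCompact_univ_pi fun _ => isCompact_closedBall _ _
  refine hc.of_isClosed_subset ?_ fun U hU => ?_
  · exact isClosed_unitary
  · intro i _ j _
    simpa using entry_norm_bound_of_unitary hU i j

noncomputable instance : MeasurableSpace (UN N) := borel _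

instance : BorelSpace (UN N) := ⟨rfl⟩

/-- The invariant probability measure. -/
noncomputable def haar (N : ℕ) : Measure (UN N) := Measure.haarMeasure ⊤

instance : IsProbabilityMeasure (haar N) := by
  refine ⟨?_⟩
  rw [haar, ← TopologicalSpace.PositiveCompacts.coe_top]
  exact Measure.haarMeasure_self

namespace HaarMoment

variable {n : ℕ}

/-- The tensor power of a matrix. -/
def kron (n : ℕ) (A : Matrix (Fin N) (Fin N) ℂ) :
    Matrix (Fin n → Fin N) (Fin n → Fin N) ℂ :=
  Matrix.of fun p r => ∏ i, A (p i) (r i)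

theorem kron_apply (A : Matrix (Fin N) (Fin N) ℂ) (p r : Fin n → Fin N) :
    kron n A p r = ∏ i, A (p i) (r i) := rfl

theorem kron_mul (A B : Matrix (Fin N) (Fin N) ℂ) : kron n (A * B) = kron n A * kron n B := by
  ext p r
  simp only [kron_apply, Matrix.mul_apply]
  rw [Fintype.prod_sum]
  exact Finset.sum_congr rfl fun q _ => Finset.prod_mul_distrib

theorem kron_one : kron n (1 : Matrix (Fin N) (Fin N) ℂ) = 1 := by
  ext p r
  rw [kron_apply, Matrix.one_apply]
  split_ifs with h
  · subst h; simp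
  · obtain ⟨i, hi⟩ := Function.ne_iff.1 h
    exact Finset.prod_eq_zero (Finset.mem_univ i) (Matrix.one_apply_ne hi)

theorem kron_conjTranspose (A : Matrix (Fin N) (Fin N) ℂ) :
    kron n A.conjTranspose = (kron n A).conjTranspose := by
  ext p r
  simp [kron_apply, Matrix.conjTranspose_apply]

theorem kron_diagonal (d : Fin N → ℂ) :
    kron n (Matrix.diagonal d) = Matrix.diagonal fun p => ∏ i, d (p i) := by
  ext p r
  rw [kron_apply]
  by_cases h : p = r
  · subst h; simp
  · obtain ⟨i, hi⟩ := Function.ne_iff.1 h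
    rw [Matrix.diagonal_apply_ne _ h]
    exact Finset.prod_eq_zero (Finset.mem_univ i) (Matrix.diagonal_apply_ne _ hi)

theorem commute_mul {T : Matrix (Fin n → Fin N) (Fin n → Fin N) ℂ}
    {A B : Matrix (Fin N) (Fin N) ℂ} (hA : Commute T (kron n A)) (hB : Commute T (kron n B)) :
    Commute T (kron n (A * B)) := by
  rw [kron_mul]; exact hA.mul_right hB

variable {T : Matrix (Fin n → Fin N) (Fin n → Fin N) ℂ}

/-- The entries of an invariant matrix sit on pairs of indices with the same counts. -/
theorem count_eq (hT : ∀ U ∈ Matrix.unitaryGroup (Fin N) ℂ, Commute T (kron n U))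
    {p r : Fin n → Fin N} (h : T p r ≠ 0) (a : Fin N) :
    #{i | p i = a} = #{i | r i = a} := by
  set z : ℂ := Complex.exp (2 * Real.pi * Complex.I / (n + 1 : ℕ)) with hz
  have hzp : IsPrimitiveRoot z (n + 1) := Complex.isPrimitiveRoot_exp _ n.succ_ne_zero
  have hzn : ‖z‖ = 1 := hzp.norm'_eq_one n.succ_ne_zero
  have hd : Matrix.diagonal (fun b => if b = a then z else 1) ∈ Matrix.unitaryGroup (Fin N) ℂ := by
    rw [Matrix.mem_unitaryGroup_iff, Matrix.star_eq_conjTranspose, Matrix.diagonal_conjTranspose,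
      Matrix.diagonal_mul_diagonal, ← Matrix.diagonal_one]
    congr 1
    ext b
    by_cases hb : b = a
    · subst hb
      simp [Complex.mul_conj, Complex.normSq_eq_norm_sq, hzn]
    · simp [hb]
  have key := congrFun (congrFun (hT _ hd).eq p) r
  rw [kron_diagonal, Matrix.mul_diagonal, Matrix.diagonal_mul, mul_comm (T p r)] at key
  have e : ∀ q : Fin n → Fin N, (∏ i, if q i = a then z else 1) = z ^ #{i | q i = a} := fun q => by
    rw [Finset.prod_ite, Finset.prod_const, Finset.prod_const_one, mul_one]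
  rw [e, e] at key
  refine hzp.pow_inj ?_ ?_ (mul_right_cancel₀ h key).symm
  · exact Nat.lt_succ_of_le ((Finset.card_le_univ _).trans (by simp))
  · exact Nat.lt_succ_of_le ((Finset.card_le_univ _).trans (by simp))

theorem commute_diagonal (hT : ∀ U ∈ Matrix.unitaryGroup (Fin N) ℂ, Commute T (kron n U))
    (d : Fin N → ℂ) : Commute T (kron n (Matrix.diagonal d)) := by
  rw [kron_diagonal]
  ext p r
  rw [Matrix.mul_diagonal, Matrix.diagonal_mul]
  by_cases h : T p r = 0
  · simp [h]
  · have e : ∀ q : Fin n → Fin N, ∏ i, d (q i) = ∏ a, d a ^ #{i | q i = a} := fun q => by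
      rw [← Finset.prod_fiberwise Finset.univ q]
      refine Finset.prod_congr rfl fun a _ => ?_
      rw [Finset.prod_congr rfl (fun i hi => by rw [(Finset.mem_filter.1 hi).2]),
        Finset.prod_const]
    rw [e, e, mul_comm]
    simp only [count_eq hT h]

/-- Any assignment of `n` distinct basis vectors to basis vectors is realised in the algebra
generated by unitaries and diagonals. -/
theorem exists_commute_map (hn : n ≤ N)
    (hT : ∀ U ∈ Matrix.unitaryGroup (Fin N) ℂ, Commute T (kron n U)) (r : Fin n → Fin N) :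
    ∃ g : Matrix (Fin N) (Fin N) ℂ, Commute T (kron n g) ∧
      ∀ k a, g a (Fin.castLE hn k) = if r k = a then 1 else 0 := by
  classical
  set w : Fin N → ℝ := fun a => (Real.sqrt (#{k | r k = a} : ℕ))⁻¹ with hw
  have hpos : ∀ k, (0 : ℝ) < (#{i | r i = r k} : ℕ) := fun k => by
    exact_mod_cast Finset.card_pos.2 ⟨k, by simp⟩
  set v : Fin N → EuclideanSpace ℂ (Fin N) := fun a => WithLp.toLp 2 fun j =>
    ∑ k, if Fin.castLE hn k = j ∧ r k = a then (w a : ℂ) else 0 with hv
  have hinj := Fin.castLE_injective hn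
  have hve : ∀ a k, v a (Fin.castLE hn k) = if r k = a then (w a : ℂ) else 0 := fun a k => by
    show (∑ i, if Fin.castLE hn i = Fin.castLE hn k ∧ r i = a then (w a : ℂ) else 0) = _
    rw [Finset.sum_eq_single k (fun i _ hi => by simp [hinj.ne hi]) (by simp)]
    simp
  have hinner : ∀ a b, inner ℂ (v a) (v b) =
      if a = b then ((#{k | r k = a} : ℕ) : ℂ) * (w a : ℂ) * (w a : ℂ) else 0 := by
    intro a b
    have e0 : ∀ j, v b j = ∑ k, if Fin.castLE hn k = j ∧ r k = b then (w b : ℂ) else 0 :=
      fun _ => rfl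
    calc inner ℂ (v a) (v b) = ∑ j, conj (v a j) * v b j := by
          simp [PiLp.inner_apply, mul_comm]
      _ = ∑ j, ∑ k, (if Fin.castLE hn k = j then
            conj (v a j) * (if r k = b then (w b : ℂ) else 0) else 0) := by
          refine Finset.sum_congr rfl fun j _ => ?_
          rw [e0, Finset.mul_sum]
          refine Finset.sum_congr rfl fun k _ => ?_
          by_cases h : Fin.castLE hn k = j <;> simp [h]
      _ = ∑ k, conj (v a (Fin.castLE hn k)) * (if r k = b then (w b : ℂ) else 0) := by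
          rw [Finset.sum_comm]
          exact Finset.sum_congr rfl fun k _ => by simp
      _ = _ := by
          simp only [hve]
          split_ifs with hab
          · subst hab
            rw [Finset.sum_congr rfl (g := fun k => if r k = a then (w a : ℂ) * (w a : ℂ) else 0)
              fun k _ => by split_ifs <;> simp]
            simp [Finset.sum_ite]
            ring
          · refine Finset.sum_eq_zero fun k _ => ?_
            by_cases h : r k = a
            · subst h; simp [hab]
            · simp [h]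
  have hon : Orthonormal ℂ ((Set.range r).domRestrict v) := by
    rw [orthonormal_iff_ite]
    rintro ⟨a, k, rfl⟩ ⟨b, hb⟩
    show inner ℂ (v (r k)) (v b) = _
    rw [hinner]
    by_cases h : r k = b
    · subst h
      rw [if_pos rfl, if_pos rfl, mul_assoc, ← Complex.ofReal_mul, hw]
      show ((#{i | r i = r k} : ℕ) : ℂ) * _ = 1
      rw [← mul_inv, Real.mul_self_sqrt (hpos k).le, Complex.ofReal_inv, Complex.ofReal_natCast,
        mul_inv_cancel₀]
      exact_mod_cast (hpos k).ne'
    · rw [if_neg h, if_neg fun e => h (congrArg Subtype.val e)]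
  obtain ⟨b, hb⟩ := Orthonormal.exists_orthonormalBasis_extension_of_card_eq
    (by simp) (v := v) (s := Set.range r) hon
  set U : Matrix (Fin N) (Fin N) ℂ := Matrix.of fun a j => b a j with hU
  have hUu : U ∈ Matrix.unitaryGroup (Fin N) ℂ := by
    rw [Matrix.mem_unitaryGroup_iff]
    ext a c
    have h := orthonormal_iff_ite.1 b.orthonormal c a
    rw [PiLp.inner_apply] at h
    simp only [RCLike.inner_apply] at h
    rw [Matrix.mul_apply, Matrix.one_apply]
    simp only [Matrix.star_apply, hU, Matrix.of_apply, Complex.star_def]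
    rw [show (if a = c then (1 : ℂ) else 0) = if c = a then 1 else 0 by simp [eq_comm], ← h]
  set D : Fin N → ℂ := fun j =>
    ∑ k, if Fin.castLE hn k = j then ((w (r k))⁻¹ : ℝ) else (0 : ℂ) with hD
  refine ⟨Matrix.diagonal (fun a => if a ∈ Set.range r then (1 : ℂ) else 0) * U * Matrix.diagonal D,
    commute_mul (commute_mul (commute_diagonal hT _) (hT U hUu)) (commute_diagonal hT _),
    fun k a => ?_⟩
  have hDk : D (Fin.castLE hn k) = ((w (r k))⁻¹ : ℝ) := by
    rw [hD]
    exact (Finset.sum_eq_single k (fun i _ hi => by simp [hinj.ne hi]) (by simp)).trans (by simp)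
  rw [Matrix.mul_diagonal, Matrix.diagonal_mul, hDk]
  by_cases ha : a ∈ Set.range r
  · rw [if_pos ha, one_mul, hU, Matrix.of_apply, hb a ha, hve]
    split_ifs with h
    · subst h
      rw [← Complex.ofReal_mul, mul_inv_cancel₀, Complex.ofReal_one]
      rw [hw]
      exact inv_ne_zero (Real.sqrt_pos.2 (hpos k)).ne'
    · rw [zero_mul]
  · rw [if_neg ha, zero_mul, zero_mul, if_neg fun h => ha ⟨k, h⟩]

/-- The commutant of the tensor powers of unitaries consists of the permutations. -/
theorem exists_perm_coeff (hn : n ≤ N)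
    (hT : ∀ U ∈ Matrix.unitaryGroup (Fin N) ℂ, Commute T (kron n U)) :
    ∃ c : Equiv.Perm (Fin n) → ℂ, ∀ p r, T p r = ∑ σ : Equiv.Perm (Fin n), if r = p ∘ ⇑σ then c σ else 0 := by
  classical
  set e : Fin n → Fin N := Fin.castLE hn with he
  have hinj : Function.Injective e := Fin.castLE_injective hn
  have hsupp : ∀ q, T q e ≠ 0 → ∃ σ : Equiv.Perm (Fin n), e ∘ σ = q := by
    intro q hq
    have hc := count_eq hT hq
    have hmem : ∀ i, ∃ k, e k = q i := fun i => by
      by_contra h
      push Not at h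
      have h1 : #{j | e j = q i} = 0 := by simp [h]
      rw [← hc] at h1
      simp only [Finset.card_eq_zero, Finset.filter_eq_empty_iff] at h1
      exact h1 (Finset.mem_univ i) rfl
    choose s hs using hmem
    have hs1 : Function.Injective s := fun i j hij => by
      have hqe : q i = q j := by rw [← hs i, hij, hs j]
      have h1 : #{l | e l = q i} ≤ 1 := Finset.card_le_one.2 fun a ha b hb => by
        simp only [Finset.mem_filter, Finset.mem_univ, true_and] at ha hb
        exact hinj (ha.trans hb.symm)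
      rw [← hc] at h1
      exact Finset.card_le_one.1 h1 i (by simp) j (by simp [hqe])
    exact ⟨Equiv.ofBijective s ⟨hs1, Finite.injective_iff_surjective.1 hs1⟩, funext hs⟩
  refine ⟨fun σ => T (e ∘ ⇑σ⁻¹) e, fun p r => ?_⟩
  obtain ⟨g, hg, hge⟩ := exists_commute_map hn hT r
  have hK : ∀ q, kron n g q e = if q = r then 1 else 0 := fun q => by
    rw [kron_apply]
    simp only [he, hge]
    by_cases h : q = r
    · subst h; simp
    · obtain ⟨i, hi⟩ := Function.ne_iff.1 h
      rw [if_neg h]
      exact Finset.prod_eq_zero (Finset.mem_univ i) (if_neg (Ne.symm hi))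
  have key := congrFun (congrFun hg.eq p) e
  rw [Matrix.mul_apply, Matrix.mul_apply] at key
  simp only [hK, mul_ite, mul_one, mul_zero, Finset.sum_ite_eq', Finset.mem_univ, if_true] at key
  rw [key]
  have h2 : ∀ σ : Equiv.Perm (Fin n),
      kron n g p (e ∘ ⇑σ⁻¹) = if r = p ∘ ⇑σ then 1 else 0 := fun σ => by
    rw [kron_apply]
    simp only [he, Function.comp_apply, hge]
    by_cases h : r = p ∘ ⇑σ
    · simp [h]
    · rw [if_neg h]
      obtain ⟨i, hi⟩ := Function.ne_iff.1 h
      refine Finset.prod_eq_zero (Finset.mem_univ (σ i)) (if_neg ?_)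
      simpa using hi
  symm
  calc ∑ σ : Equiv.Perm (Fin n), (if r = p ∘ ⇑σ then T (e ∘ ⇑σ⁻¹) e else 0)
      = ∑ σ : Equiv.Perm (Fin n), kron n g p (e ∘ ⇑σ⁻¹) * T (e ∘ ⇑σ⁻¹) e :=
        Finset.sum_congr rfl fun σ _ => by rw [h2]; simp
    _ = ∑ q ∈ Finset.univ.image fun σ : Equiv.Perm (Fin n) => e ∘ ⇑σ⁻¹,
          kron n g p q * T q e := by
        rw [Finset.sum_image]
        intro σ _ τ _ h
        exact inv_injective (Equiv.ext fun i => hinj (congrFun h i))
    _ = _ := by
        refine Finset.sum_subset (Finset.subset_univ _) fun q _ hq => ?_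
        by_cases h : T q e = 0
        · simp [h]
        · obtain ⟨σ, rfl⟩ := hsupp q h
          exact absurd (Finset.mem_image.2 ⟨σ⁻¹, Finset.mem_univ _, by simp⟩) hq

/-- The integrand of a mixed moment. -/
noncomputable def mono (p q r s : Fin n → Fin N) (U : UN N) : ℂ :=
  ∏ i, conj ((U : Matrix _ _ ℂ) (r i) (s i)) * (U : Matrix _ _ ℂ) (p i) (q i)

theorem continuous_mono (p q r s : Fin n → Fin N) : Continuous (mono p q r s) := by
  unfold mono
  refine continuous_finsetProd _ fun i _ => ?_
  exact (Complex.continuous_conj.comp ((continuous_subtype_val).matrix_elem _ _)).mul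
    (continuous_subtype_val.matrix_elem _ _)

theorem integrable_mono (p q r s : Fin n → Fin N) : Integrable (mono p q r s) (haar N) :=
  (continuous_mono p q r s).integrable_of_hasCompactSupport (HasCompactSupport.of_compactSpace _)

/-- The moments, as a matrix in the row indices. -/
noncomputable def momMat (q s : Fin n → Fin N) :
    Matrix (Fin n → Fin N) (Fin n → Fin N) ℂ :=
  Matrix.of fun p r => ∫ U, mono p q r s U ∂haar N

theorem momMat_commute (q s : Fin n → Fin N) :
    ∀ V ∈ Matrix.unitaryGroup (Fin N) ℂ, Commute (momMat q s) (kron n V) := by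
  intro V hV
  have hinv : kron n V * momMat q s * kron n V.conjTranspose = momMat q s := by
    ext p r
    rw [Matrix.mul_apply]
    simp only [Matrix.mul_apply, momMat, Matrix.of_apply, Finset.sum_mul]
    have hg : ∫ U, mono p q r s U ∂haar N = ∫ U, mono p q r s ((⟨V, hV⟩ : UN N) * U) ∂haar N := by
      have : (haar N).IsMulLeftInvariant := by rw [haar]; infer_instance
      exact (integral_mul_left_eq_self _ _).symm
    rw [hg]
    have hpt : ∀ U : UN N, mono p q r s ((⟨V, hV⟩ : UN N) * U) = ∑ r' : Fin n → Fin N,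
        ∑ p' : Fin n → Fin N, kron n V p p' * kron n V.conjTranspose r' r * mono p' q r' s U := by
      intro U
      simp only [mono, kron_apply, Matrix.UnitaryGroup.mul_val, Matrix.mul_apply, map_sum, map_mul,
        Finset.sum_mul, Matrix.conjTranspose_apply, ← Finset.prod_mul_distrib]
      rw [Fintype.prod_sum]
      refine Finset.sum_congr rfl fun r' _ => ?_
      simp only [Finset.mul_sum]
      rw [Fintype.prod_sum]
      refine Finset.sum_congr rfl fun p' _ => Finset.prod_congr rfl fun i _ => ?_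
      simp only [Complex.star_def]
      ring
    simp only [hpt]
    rw [integral_finsetSum _ fun r' _ =>
      integrable_finsetSum _ fun p' _ => (integrable_mono p' q r' s).const_mul _]
    refine Finset.sum_congr rfl fun r' _ => ?_
    rw [integral_finsetSum _ fun p' _ => (integrable_mono p' q r' s).const_mul _]
    refine Finset.sum_congr rfl fun p' _ => ?_
    rw [integral_const_mul]
    ring
  have h1 : kron n V.conjTranspose * kron n V = 1 := by
    rw [← kron_mul, ← Matrix.star_eq_conjTranspose, Matrix.mem_unitaryGroup_iff'.1 hV, kron_one]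
  show momMat q s * kron n V = kron n V * momMat q s
  conv_lhs => rw [← hinv, mul_assoc, h1, mul_one]

/-- The contraction of the moments along a permutation. -/
theorem momMat_trace (q s : Fin n → Fin N) (π : Equiv.Perm (Fin n)) :
    ∑ p : Fin n → Fin N, momMat q s p (p ∘ π) = if s = q ∘ π then 1 else 0 := by
  simp only [momMat, Matrix.of_apply]
  rw [← integral_finsetSum _ fun p _ => integrable_mono p q (p ∘ π) s]
  have hpt : ∀ U : UN N,
      (∑ p : Fin n → Fin N, mono p q (p ∘ π) s U) = if s = q ∘ π then 1 else 0 := by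
    intro U
    have e : ∀ p : Fin n → Fin N, mono p q (p ∘ π) s U = ∏ j,
        conj ((U : Matrix _ _ ℂ) (p j) (s (π.symm j))) * (U : Matrix _ _ ℂ) (p j) (q j) := by
      intro p
      rw [mono, Finset.prod_mul_distrib, Finset.prod_mul_distrib]
      congr 1
      exact Fintype.prod_equiv π _ _ fun i => by simp
    have hu : ∀ a b, ∑ c, conj ((U : Matrix _ _ ℂ) c a) * (U : Matrix _ _ ℂ) c b =
        if a = b then 1 else 0 := fun a b => by
      have h := congrFun (congrFun (Matrix.UnitaryGroup.star_mul_self U) a) b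
      simpa [Matrix.mul_apply, Matrix.one_apply] using h
    simp only [e]
    have hps : ∀ F : Fin n → Fin N → ℂ, ∑ p : Fin n → Fin N, ∏ j, F j (p j) = ∏ j, ∑ c, F j c :=
      fun F => (Fintype.prod_sum F).symm
    have hps' := hps fun j c =>
      conj ((U : Matrix _ _ ℂ) c (s (π.symm j))) * (U : Matrix _ _ ℂ) c (q j)
    rw [hps']
    simp only [hu]
    by_cases h : s = q ∘ π
    · simp [h]
    · rw [if_neg h]
      obtain ⟨i, hi⟩ := Function.ne_iff.1 h
      exact Finset.prod_eq_zero (Finset.mem_univ (π i)) (if_neg (by simpa using hi))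
  simp [hpt]

/-- The Gram matrix of the permutations, normalised. -/
noncomputable def gram (N n : ℕ) : Matrix (Equiv.Perm (Fin n)) (Equiv.Perm (Fin n)) ℝ :=
  Matrix.of fun σ π => (#{p : Fin n → Fin N | p ∘ σ = p ∘ π} : ℝ) / (N : ℝ) ^ n

theorem gram_transpose : (gram N n).transpose = gram N n := by
  ext σ π
  simp [gram, eq_comm]

theorem gram_inv_perm : (gram N n).submatrix (fun σ => σ⁻¹) (fun σ => σ⁻¹) = gram N n := by
  ext σ π
  simp only [gram, Matrix.submatrix_apply, Matrix.of_apply]
  congr 2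
  refine Finset.card_bij' (fun p _ => p ∘ ⇑σ⁻¹) (fun p _ => p ∘ ⇑σ) ?_ ?_ ?_ ?_
  · intro p hp
    simp only [Finset.mem_filter, Finset.mem_univ, true_and] at hp ⊢
    conv_rhs => rw [hp]
    funext i
    simp
  · intro p hp
    simp only [Finset.mem_filter, Finset.mem_univ, true_and] at hp ⊢
    conv_rhs => rw [hp]
    funext i
    simp
  · intro p _; funext i; simp
  · intro p _; funext i; simp

theorem gram_self (hN : 0 < N) (σ : Equiv.Perm (Fin n)) : gram N n σ σ = 1 := by
  simp [gram, hN.ne']

theorem gram_le (hN : 0 < N) {σ π : Equiv.Perm (Fin n)} (h : σ ≠ π) :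
    |gram N n σ π| ≤ 1 / N := by
  obtain ⟨i, hi⟩ : ∃ i, σ i ≠ π i := by
    by_contra hc
    push Not at hc
    exact h (Equiv.ext hc)
  have hcard : #{p : Fin n → Fin N | p ∘ σ = p ∘ π} * N ≤ N ^ n := by
    have := Finset.card_le_card_of_injOn (s := {p : Fin n → Fin N | p ∘ σ = p ∘ π}.toFinset ×ˢ
        (Finset.univ : Finset (Fin N))) (t := (Finset.univ : Finset (Fin n → Fin N)))
      (fun x => Function.update x.1 (σ i) x.2) (fun _ _ => Finset.mem_univ _) ?_
    · simpa [Fintype.card_fun] using this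
    · rintro ⟨p, a⟩ hp ⟨p', a'⟩ hp' heq
      simp only [Finset.coe_product, Set.mem_prod, Set.coe_toFinset, Set.mem_ofPred_eq] at hp hp'
      simp only at heq
      have hb : a = a' := by
        simpa using congrFun heq (σ i)
      refine Prod.ext (funext fun j => ?_) hb
      by_cases hj : j = σ i
      · subst hj
        show p (σ i) = p' (σ i)
        have h1 : p (σ i) = p (π i) := congrFun hp.1 i
        have h2 : p' (σ i) = p' (π i) := congrFun hp'.1 i
        rw [h1, h2]
        simpa [Function.update_of_ne (Ne.symm hi)] using congrFun heq (π i)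
      · simpa [Function.update_of_ne hj] using congrFun heq j
  have hNR : (0 : ℝ) < N := by exact_mod_cast hN
  rw [gram, Matrix.of_apply, abs_of_nonneg (by positivity), div_le_div_iff₀ (by positivity) hNR,
    one_mul]
  exact_mod_cast hcard

/-- For large `N` the inverse of the Gram matrix is close to the identity. -/
theorem exists_inverse (hN : 0 < N) (hm : 2 * Fintype.card (Equiv.Perm (Fin n)) ≤ N) :
    IsUnit (gram N n).det ∧
      ∑ σ, ∑ π, |(gram N n)⁻¹ σ π - if σ = π then 1 else 0| ≤
        2 * (Fintype.card (Equiv.Perm (Fin n)) : ℝ) ^ 2 / N := by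
  classical
  set m : ℝ := (Fintype.card (Equiv.Perm (Fin n)) : ℝ) with hmdef
  have hm2 : 2 * m ≤ N := by rw [hmdef]; exact_mod_cast hm
  have hNR : (0 : ℝ) < N := by exact_mod_cast hN
  have hm0 : 0 < m := by rw [hmdef]; exact_mod_cast Fintype.card_pos
  have hdet : (gram N n).det ≠ 0 := by
    refine det_ne_zero_of_sum_row_lt_diag fun σ => ?_
    rw [gram_self hN, norm_one]
    refine (Finset.sum_le_sum fun π hπ => ?_).trans_lt (b := ∑ _π ∈ Finset.univ.erase σ, 1 / (N : ℝ))
      ?_
    · rw [Real.norm_eq_abs]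
      exact gram_le hN (Ne.symm (Finset.ne_of_mem_erase hπ))
    · rw [Finset.sum_const, nsmul_eq_mul, mul_one_div, div_lt_one hNR]
      have h1 : ((Finset.univ.erase σ).card : ℝ) ≤ m := by
        rw [hmdef]; exact_mod_cast Finset.card_le_univ _
      linarith
  refine ⟨isUnit_iff_ne_zero.2 hdet, ?_⟩
  set α := (gram N n)⁻¹ with hα
  set E := gram N n - 1 with hE
  have hEα : ∀ σ π, α σ π - (if σ = π then 1 else 0) = -∑ ρ, E σ ρ * α ρ π := by
    intro σ π
    have h : α - 1 = -(E * α) := by
      rw [hE, sub_mul, one_mul, hα, Matrix.mul_nonsing_inv _ (isUnit_iff_ne_zero.2 hdet)]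
      abel
    simpa [Matrix.one_apply, Matrix.mul_apply] using congrFun (congrFun h σ) π
  have hEle : ∀ σ ρ, |E σ ρ| ≤ 1 / N := by
    intro σ ρ
    rw [hE, Matrix.sub_apply, Matrix.one_apply]
    by_cases h : σ = ρ
    · subst h; simp [gram_self hN]
    · simpa [h] using gram_le hN h
  set Sd := ∑ σ, ∑ π, |α σ π - if σ = π then 1 else 0| with hSd
  have h1 : Sd ≤ m / N * ∑ ρ, ∑ π, |α ρ π| := by
    calc Sd ≤ ∑ _σ : Equiv.Perm (Fin n), ∑ π, ∑ ρ, 1 / (N : ℝ) * |α ρ π| := by
          refine Finset.sum_le_sum fun σ _ => Finset.sum_le_sum fun π _ => ?_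
          rw [hEα, abs_neg]
          refine (Finset.abs_sum_le_sum_abs _ _).trans (Finset.sum_le_sum fun ρ _ => ?_)
          rw [abs_mul]
          exact mul_le_mul_of_nonneg_right (hEle σ ρ) (abs_nonneg _)
      _ = _ := by
          rw [Finset.sum_const, Finset.card_univ, nsmul_eq_mul, Finset.sum_comm (γ := Equiv.Perm _)]
          simp only [← Finset.mul_sum]
          rw [hmdef]
          ring
  have h2 : ∑ ρ, ∑ π, |α ρ π| ≤ Sd + m := by
    calc ∑ ρ, ∑ π, |α ρ π| ≤
          ∑ ρ, ∑ π, (|α ρ π - if ρ = π then 1 else 0| + if ρ = π then 1 else 0) := by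
          refine Finset.sum_le_sum fun ρ _ => Finset.sum_le_sum fun π _ => ?_
          split_ifs
          · calc |α ρ π| = |(α ρ π - 1) + 1| := by ring_nf
              _ ≤ _ := (abs_add_le _ _).trans (by simp)
          · simp
      _ = _ := by simp [Finset.sum_add_distrib, hSd, hmdef]
  have h3 : Sd ≤ m / N * (Sd + m) := h1.trans (mul_le_mul_of_nonneg_left h2 (by positivity))
  have h0 : 0 ≤ Sd := Finset.sum_nonneg fun _ _ => Finset.sum_nonneg fun _ _ => abs_nonneg _
  have h4 : m / N * Sd ≤ Sd / 2 := by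
    rw [div_mul_eq_mul_div, div_le_div_iff₀ hNR two_pos]
    nlinarith
  rw [le_div_iff₀ hNR]
  have h5 : m / N * m * N = m ^ 2 := by field_simp
  nlinarith

/-- The moments through the inverse of the Gram matrix. -/
theorem integral_mono_eq (hn : n ≤ N) (hN : 0 < N) (hu : IsUnit (gram N n).det)
    (p q r s : Fin n → Fin N) :
    ∫ U, mono p q r s U ∂haar N = ((N : ℂ) ^ n)⁻¹ * ∑ σ : Equiv.Perm (Fin n),
      ∑ π : Equiv.Perm (Fin n),
        if r = p ∘ σ ∧ s = q ∘ π then (((gram N n)⁻¹ σ π : ℝ) : ℂ) else 0 := by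
  classical
  obtain ⟨c, hc⟩ := exists_perm_coeff hn (momMat_commute q s)
  have htr : ∀ π : Equiv.Perm (Fin n),
      ∑ σ, c σ * ((N : ℂ) ^ n * (gram N n σ π : ℂ)) = if s = q ∘ π then 1 else 0 := fun π => by
    rw [← momMat_trace q s π]
    simp only [hc]
    rw [Finset.sum_comm]
    refine Finset.sum_congr rfl fun σ _ => ?_
    have e : ((N : ℂ) ^ n * (gram N n σ π : ℂ)) =
        (#{p : Fin n → Fin N | p ∘ σ = p ∘ π} : ℂ) := by
      have : (N : ℂ) ^ n ≠ 0 := pow_ne_zero _ (by exact_mod_cast hN.ne')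
      simp only [gram, Matrix.of_apply]
      push_cast
      field_simp
    rw [e, Finset.sum_ite, Finset.sum_const_zero, add_zero, Finset.sum_const, nsmul_eq_mul,
      mul_comm]
    congr 2
    exact Finset.card_bij' (fun p _ => p) (fun p _ => p) (by simp [eq_comm]) (by simp [eq_comm])
      (fun _ _ => rfl) (fun _ _ => rfl)
  have hcs : ∀ σ, c σ = ((N : ℂ) ^ n)⁻¹ *
      ∑ π : Equiv.Perm (Fin n), if s = q ∘ π then (((gram N n)⁻¹ σ π : ℝ) : ℂ) else 0 := by
    intro σ
    have hsym : ∀ a b, (gram N n)⁻¹ a b = (gram N n)⁻¹ b a := fun a b => by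
      conv_lhs => rw [← gram_transpose, ← Matrix.transpose_nonsing_inv]
      rfl
    have hid : ∀ a, ∑ π, gram N n a π * (gram N n)⁻¹ σ π = if a = σ then 1 else 0 := fun a => by
      have h := congrFun (congrFun (Matrix.mul_nonsing_inv _ hu) a) σ
      rw [Matrix.mul_apply, Matrix.one_apply] at h
      rw [← h]
      exact Finset.sum_congr rfl fun π _ => by rw [hsym σ π]
    have h1 : ∑ π, (∑ a, c a * ((N : ℂ) ^ n * (gram N n a π : ℂ))) *
        (((gram N n)⁻¹ σ π : ℝ) : ℂ) = (N : ℂ) ^ n * c σ := by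
      simp only [Finset.sum_mul]
      rw [Finset.sum_comm]
      calc ∑ a, ∑ π, c a * ((N : ℂ) ^ n * (gram N n a π : ℂ)) * (((gram N n)⁻¹ σ π : ℝ) : ℂ)
          = ∑ a, c a * (N : ℂ) ^ n * (((∑ π, gram N n a π * (gram N n)⁻¹ σ π) : ℝ) : ℂ) := by
            refine Finset.sum_congr rfl fun a _ => ?_
            push_cast
            rw [Finset.mul_sum]
            exact Finset.sum_congr rfl fun π _ => by ring
        _ = _ := by
            simp only [hid, apply_ite Complex.ofReal, Complex.ofReal_one, Complex.ofReal_zero]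
            simp [mul_comm]
    have h2 : (N : ℂ) ^ n * c σ =
        ∑ π : Equiv.Perm (Fin n), if s = q ∘ π then (((gram N n)⁻¹ σ π : ℝ) : ℂ) else 0 := by
      rw [← h1]
      exact Finset.sum_congr rfl fun π _ => by rw [htr]; simp
    rw [← h2, inv_mul_cancel_left₀ (pow_ne_zero _ (by exact_mod_cast hN.ne'))]
  show momMat q s p r = _
  rw [hc, Finset.mul_sum]
  refine Finset.sum_congr rfl fun σ _ => ?_
  rw [hcs]
  by_cases h : r = p ∘ σ <;> simp [h]

end HaarMoment

open HaarMoment

/-- The mixed moments are almost those of independent matrices, up to the permutations. -/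
theorem haar_moment (n : ℕ) {ε : ℝ} (hε : 0 < ε) : ∃ N0 : ℕ, ∀ N, N0 ≤ N →
    ∃ α : Equiv.Perm (Fin n) → Equiv.Perm (Fin n) → ℝ,
      (∑ σ, ∑ π, |α σ π - if σ = π then 1 else 0|) ≤ ε ∧
      (∀ p q r s : Fin n → Fin N,
        ∫ U : UN N, (∏ i, conj ((U : Matrix _ _ ℂ) (r i) (s i)) * (U : Matrix _ _ ℂ) (p i) (q i))
            ∂haar N =
          ((N : ℂ) ^ n)⁻¹ * ∑ σ : Equiv.Perm (Fin n), ∑ π : Equiv.Perm (Fin n), if r = p ∘ σ ∧ s = q ∘ π then (α σ π : ℂ) else 0) ∧
      ∀ p q r s : Fin n → Fin N,
        ∫ U : UN N, (∏ i, (U : Matrix _ _ ℂ) (s i) (r i) * conj ((U : Matrix _ _ ℂ) (q i) (p i)))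
            ∂haar N =
          ((N : ℂ) ^ n)⁻¹ * ∑ σ : Equiv.Perm (Fin n), ∑ π : Equiv.Perm (Fin n), if r = p ∘ σ ∧ s = q ∘ π then (α σ π : ℂ) else 0 := by
  classical
  set m := Fintype.card (Equiv.Perm (Fin n)) with hm
  refine ⟨n + 2 * m + ⌈2 * (m : ℝ) ^ 2 / ε⌉₊ + 1, fun N hN => ?_⟩
  have hN0 : 0 < N := by omega
  have hn : n ≤ N := by omega
  obtain ⟨hu, hsum⟩ := exists_inverse (n := n) hN0 (by omega)
  refine ⟨fun σ π => (gram N n)⁻¹ σ π, hsum.trans ?_, fun p q r s => integral_mono_eq hn hN0 hu p q r s,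
    fun p q r s => ?_⟩
  · have h1 : 2 * (m : ℝ) ^ 2 / ε ≤ (N : ℝ) := (Nat.le_ceil _).trans
      (by exact_mod_cast (show ⌈2 * (m : ℝ) ^ 2 / ε⌉₊ ≤ N by omega))
    rw [div_le_iff₀ hε] at h1
    rw [div_le_iff₀ (by exact_mod_cast hN0)]
    linarith
  have h := integral_mono_eq hn hN0 hu s r q p
  refine Eq.trans ?_ (h.trans ?_)
  · refine integral_congr_ae (Filter.Eventually.of_forall fun U => ?_)
    exact Finset.prod_congr rfl fun i _ => mul_comm _ _
  congr 1
  have hinv : ∀ σ π, (gram N n)⁻¹ π⁻¹ σ⁻¹ = (gram N n)⁻¹ σ π := fun σ π => by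
    have h1 : ((gram N n).submatrix (Equiv.inv (Equiv.Perm (Fin n)))
        (Equiv.inv (Equiv.Perm (Fin n))))⁻¹ = (gram N n)⁻¹ := by
      exact congrArg (·⁻¹) gram_inv_perm
    rw [Matrix.inv_submatrix_equiv] at h1
    calc (gram N n)⁻¹ π⁻¹ σ⁻¹ = (gram N n)⁻¹ π σ := congrFun (congrFun h1 π) σ
      _ = _ := by
        conv_lhs => rw [← gram_transpose, ← Matrix.transpose_nonsing_inv]
        rfl
  rw [Finset.sum_comm]
  refine Fintype.sum_equiv (Equiv.inv _) _ _ fun a => ?_
  refine Fintype.sum_equiv (Equiv.inv _) _ _ fun b => ?_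
  simp only [Equiv.inv_apply]
  have e : (q = s ∘ ⇑b ∧ p = r ∘ ⇑a) ↔ (r = p ∘ ⇑a⁻¹ ∧ s = q ∘ ⇑b⁻¹) := by
    constructor
    · rintro ⟨rfl, rfl⟩; constructor <;> funext i <;> simp
    · rintro ⟨rfl, rfl⟩; constructor <;> funext i <;> simp
  rw [hinv b a]
  simp only [e]

end Vale.Agent.P082.Full
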