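import Vale.Agent.P082.Full.Average
import Vale.Agent.P082.Full.Generate
import Vale.Agent.P082.Full.Exist
import Vale.Agent.P082.Frame

/-!
P082: the bounded Hochschild cohomology of a type II_1 von Neumann algebra in itself vanishes.
-/

open Filter
open scoped Topology

namespace Vale.Agent.P082.Full

universe u

variable {H : Type u} [NormedAddCommGroup H] [InnerProductSpace ℂ H] [CompleteSpace H]
  {M : VonNeumannAlgebra H}

attribute [local instance] algCStar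

/-- A tracial state multiplied by an element is normal on bounded sets. -/
theorem tendsto_trS {ξ : ℕ → H} (hξ : VP082.Lit.IsTrace H M ξ) (z : Alg M) {ι : Type*}
    {l : Filter ι} {a : ι → Alg M} {b : Alg M} {C : ℝ} (hC : ∀ i, ‖a i‖ ≤ C) (h : TendsW l a b) :
    Tendsto (fun i => trS hξ (z * a i)) l (𝓝 (trS hξ (z * b))) := by
  refine tendsto_tsum_of_dominated_convergence (hξ.1.summable.mul_left (‖z‖ * C))
    (fun n => (h.mul_left z) (ξ n) (ξ n)) (Eventually.of_forall fun i n => ?_)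
  refine (norm_inner_le_norm _ _).trans ?_
  refine (mul_le_mul_of_nonneg_left (((z * a i : Alg M) : H →L[ℂ] H).le_opNorm _)
    (norm_nonneg _)).trans ?_
  calc ‖ξ n‖ * (‖z * a i‖ * ‖ξ n‖) = ‖z * a i‖ * ‖ξ n‖ ^ 2 := by ring
    _ ≤ ‖z‖ * C * ‖ξ n‖ ^ 2 := mul_le_mul_of_nonneg_right ((norm_mul_le _ _).trans
        (mul_le_mul_of_nonneg_left (hC i) (norm_nonneg _))) (sq_nonneg _)

/-- The conjugates of the matrix units `q` by unitaries. -/
def conjUnits (q : MU (Alg M) 2) : Set (Alg M) :=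
  {s | ∃ a : unitary (Alg M), ∃ i j, (a : Alg M) * q.e i j * star (a : Alg M) = s}

/-- A cochain in its first variable, the others being fixed. -/
noncomputable def slot {n : ℕ} (f : Cochain M (n + 1)) (y : Fin n → Alg M) : Alg M →L[ℂ] Alg M :=
  LinearMap.mkContinuous
    { toFun := fun w => f (Fin.cons w y)
      map_add' := fun w w' => f.cons_add y w w'
      map_smul' := fun c w => f.cons_smul y c w }
    (‖f‖ * ∏ j, ‖y j‖) fun w => by
      have h := f.le_opNorm (Fin.cons w y)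
      simp only [Fin.prod_univ_succ, Fin.cons_zero, Fin.cons_succ] at h
      show ‖f (Fin.cons w y)‖ ≤ _
      exact h.trans_eq (by ring)

theorem slot_apply {n : ℕ} (f : Cochain M (n + 1)) (y : Fin n → Alg M) (w : Alg M) :
    slot f y w = f (Fin.cons w y) := rfl

theorem norm_slot_le {n : ℕ} (f : Cochain M (n + 1)) (y : Fin n → Alg M) :
    ‖slot f y‖ ≤ ‖f‖ * ∏ j, ‖y j‖ :=
  LinearMap.mkContinuous_norm_le _ (by positivity) _

/-- The average of rotations of a slot is the slot of the average of moves. -/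
theorem sum_rot_slot {n : ℕ} {ι : Type} [Fintype ι] (c : ι → ℝ) (u : ι → unitary (Alg M))
    (f : Cochain M (n + 1)) (y : Fin n → Alg M) (r : ℂ) (w : Alg M) :
    (∑ i, (c i : ℂ) • rot (u i) (r • slot f y)) w =
      r • (∑ i, (c i : ℂ) • act (u i : Alg M) f) (Fin.cons w y) := by
  simp [rot_apply, slot_apply, act_cons, Finset.smul_sum, smul_comm r]

/-- For a hull member obtained from `exists_avg`, the scaled test. -/
theorem norm_test_le {Φ : (Alg M →L[ℂ] Alg M) → (Alg M →L[ℂ] Alg M)} {τ : Alg M →ₗ[ℂ] ℂ}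
    {s : Alg M} {ε : ℝ}
    (hΦ : ∀ h : Alg M →L[ℂ] Alg M, ‖h‖ ≤ 1 → ∀ z x : Alg M, ‖z‖ ≤ 1 → ‖x‖ ≤ 1 →
      ‖τ (z * (Φ h (s * x) - s * Φ h x))‖ ≤ ε)
    (h : Alg M →L[ℂ] Alg M) (z x : Alg M) {C : ℝ} (hC : ‖h‖ ≤ C) {G : Alg M → Alg M}
    (hG : ∀ w, G w = ((C + 1 : ℝ) : ℂ) • Φ ((((C + 1)⁻¹ : ℝ) : ℂ) • h) w) :
    ‖τ (z * (G (s * x) - s * G x))‖ ≤ ε * ((C + 1) * (‖z‖ + 1) * (‖x‖ + 1)) := by
  have hC0 : 0 ≤ C := (norm_nonneg h).trans hC
  set a : ℝ := (C + 1)⁻¹ with ha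
  set b : ℝ := (‖z‖ + 1)⁻¹ with hb
  set d : ℝ := (‖x‖ + 1)⁻¹ with hd
  have hn : ∀ {r : ℝ}, 0 ≤ r → ‖(r : ℂ)‖ = r := fun hr => by
    rw [Complex.norm_real, Real.norm_of_nonneg hr]
  have h1 := hΦ ((a : ℂ) • h)
    (by rw [norm_smul, hn (by positivity), inv_mul_le_one₀ (by positivity)]; linarith)
    ((b : ℂ) • z) ((d : ℂ) • x)
    (by rw [norm_smul, hn (by positivity), inv_mul_le_one₀ (by positivity)]; linarith)
    (by rw [norm_smul, hn (by positivity), inv_mul_le_one₀ (by positivity)]; linarith)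
  simp only [mul_smul_comm, map_smul, ← smul_sub, smul_mul_assoc, smul_smul, norm_smul,
    norm_mul, hn (show (0 : ℝ) ≤ b by positivity), hn (show (0 : ℝ) ≤ d by positivity)] at h1
  simp only [hG, mul_smul_comm, ← smul_sub, map_smul, norm_smul,
    hn (show (0 : ℝ) ≤ C + 1 by positivity)]
  have hbd : 0 < b * d := by positivity
  rw [← le_div_iff₀' (show (0 : ℝ) < C + 1 by positivity)]
  have h2 : ‖τ (z * (Φ ((a : ℂ) • h) (s * x) - s * Φ ((a : ℂ) • h) x))‖ ≤ ε / (b * d) := by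
    rw [le_div_iff₀' hbd]
    calc b * d * ‖τ (z * (Φ ((a : ℂ) • h) (s * x) - s * Φ ((a : ℂ) • h) x))‖
        = d * b * ‖τ (z * (Φ ((a : ℂ) • h) (s * x) - s * Φ ((a : ℂ) • h) x))‖ := by ring
      _ ≤ ε := h1
  refine h2.trans_eq ?_
  rw [hb, hd]
  field_simp

theorem vanishes (hM : VP082.Lit.IsTypeTwoOne H M) (n : ℕ) : Vanishes M n := by
  classical
  obtain ⟨q, hq⟩ := exists_ample hM
  refine vanishes_of_modular (S := conjUnits q)
    (eq_top_of_conj q _ fun a i j => Algebra.subset_adjoin ⟨a, i, j, rfl⟩) fun f hf => ?_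
  refine exists_modular_of_approx
    (fun k : {ξ : ℕ → H // VP082.Lit.IsTrace H M ξ} × Alg M =>
      (trS k.1.2).comp (LinearMap.mulLeft ℂ k.2))
    (fun k {ι} l a b C hC h => tendsto_trS k.1.2 k.2 hC h)
    (fun a ha => trS_eq_zero hM a fun ξ hξ => ha (⟨ξ, hξ⟩, star a))
    fun W P ε hε => ?_
  choose a i j ha using fun s : conjUnits q => s.2
  let K : ({ξ : ℕ → H // VP082.Lit.IsTrace H M ξ} × Alg M) × Alg M × (Fin n → Alg M) → ℝ :=
    fun p => (‖f‖ * (∏ j, ‖p.2.2 j‖) + 1) * (‖p.1.2‖ + 1) * (‖p.2.1‖ + 1)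
  have hK : ∀ p, 0 ≤ K p := fun p => by positivity
  set R : ℝ := ∑ p ∈ P, K p + 1 with hR
  have hR0 : 0 < R := by
    have := Finset.sum_nonneg fun p (_ : p ∈ P) => hK p
    linarith
  obtain ⟨Φ, ⟨ι, _, c, u, hc0, hc1, hΦ⟩, hΦs⟩ := exists_avg hq (W.image a) (div_pos hε hR0)
  refine ⟨∑ i, (c i : ℂ) • act (u i : Alg M) f,
    InHull.sum (fun i _ => hc0 i) hc1 fun i _ => (inHull_self hf).act (u i).2,
    fun s hs p hp => ?_⟩
  have h1 := norm_test_le (τ := trS p.1.1.2) (s := (s : Alg M)) (ε := ε / R)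
    (fun h hh z x hz hx => by
      rw [← ha s]
      exact hΦs _ (isTr_trS p.1.1.2) h hh z x hz hx (a s) (Finset.mem_image_of_mem a hs) (i s) (j s))
    (slot f p.2.2) p.1.2 p.2.1 (norm_slot_le f p.2.2)
    (G := fun w => (∑ i, (c i : ℂ) • act (u i : Alg M) f) (Fin.cons w p.2.2)) fun w => by
      rw [hΦ, sum_rot_slot, smul_smul, ← Complex.ofReal_mul, mul_inv_cancel₀ (by positivity),
        Complex.ofReal_one, one_smul]
  refine (show ‖trS p.1.1.2 (p.1.2 * _)‖ ≤ ε from h1.trans ?_)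
  rw [div_mul_eq_mul_div, div_le_iff₀ hR0]
  refine mul_le_mul_of_nonneg_left ?_ hε.le
  exact (Finset.single_le_sum (fun p _ => hK p) hp).trans (by rw [hR]; linarith)

end Vale.Agent.P082.Full
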