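import Vale.Agent.P082.Full.Basic
import Vale.Agent.P082.LittleG

/-!
P082: a bounded map into the trace Hilbert space satisfies the two-sided family inequality.
-/

open Finset
open scoped ComplexConjugate

namespace Vale.Agent.P082.Full

variable {A : Type*} [CStarAlgebra A] {τ : A →ₗ[ℂ] ℂ}

/-- A copy of the algebra, for the trace seminorm. -/
def GNS (_τ : A →ₗ[ℂ] ℂ) : Type _ := A

noncomputable instance : AddCommGroup (GNS τ) := inferInstanceAs (AddCommGroup A)

noncomputable instance : Module ℂ (GNS τ) := inferInstanceAs (Module ℂ A)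

/-- The semi-inner product of the trace. -/
@[reducible] noncomputable def gnsCore (hτ : IsTr τ) : PreInnerProductSpace.Core ℂ (GNS τ) where
  inner x y := τ (star (show A from x) * (show A from y))
  conj_inner_symm x y := by
    show conj (τ (star (show A from y) * (show A from x))) = τ (star (show A from x) * (show A from y))
    rw [← hτ.apply_star, star_mul, star_star]
  re_inner_nonneg x := hτ.pos (show A from x)
  add_left x y w := by
    show τ (star ((show A from x) + (show A from y)) * (show A from w)) = _
    rw [star_add, add_mul, map_add]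
  smul_left x y r := by
    show τ (star (r • (show A from x)) * (show A from y)) = _
    rw [star_smul, smul_mul_assoc, map_smul]; rfl

theorem small_lg {ι : Type*} [Fintype ι] (hτ : IsTr τ) {h : A →L[ℂ] A} (hh : ‖h‖ ≤ 1) (y : ι → A) :
    ∑ i, sqn τ (h (y i)) ≤ 3 * (‖∑ i, star (y i) * y i‖ + ‖∑ i, y i * star (y i)‖) := by
  let core : PreInnerProductSpace.Core ℂ (GNS τ) := gnsCore hτ
  let _ : SeminormedAddCommGroup (GNS τ) :=
    InnerProductSpace.Core.toSeminormedAddCommGroup (c := core)
  let _ : InnerProductSpace ℂ (GNS τ) := InnerProductSpace.ofCore core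
  have hsq : ∀ a : A, ‖(show GNS τ from a)‖ ^ 2 = sqn τ a := fun a => by
    rw [norm_sq_eq_re_inner (𝕜 := ℂ)]
    rfl
  let h0 : A →ₗ[ℂ] GNS τ :=
    { toFun := fun x => h x
      map_add' := fun x y => h.map_add x y
      map_smul' := fun c x => h.map_smul c x }
  have hb : ∀ x, ‖h0 x‖ ≤ 1 * ‖x‖ := fun x => by
    refine pow_le_pow_iff_left₀ (norm_nonneg _) (by positivity) two_ne_zero |>.1 ?_
    rw [one_mul]
    exact ((hsq (h x)).trans_le (hτ.sqn_le _)).trans
      (pow_le_pow_left₀ (norm_nonneg _)
        ((h.le_of_opNorm_le hh x).trans_eq (one_mul _)) 2)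
  refine le_trans (le_of_eq ?_) ((LittleG.little_grothendieck (h0.mkContinuous 1 hb) y).trans ?_)
  · exact sum_congr rfl fun i _ => (hsq (h (y i))).symm
  · refine mul_le_mul_of_nonneg_right ?_ (by positivity)
    have := h0.mkContinuous_norm_le zero_le_one hb
    have h2 := pow_le_pow_left₀ (norm_nonneg _) this 2
    linarith

end Vale.Agent.P082.Full
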