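import Vale.Agent.P082.Full.Basic
import Vale.Agent.P082.Lit.Statement

/-!
P082: the tracial functionals of the normal tracial states.
-/

open scoped InnerProductSpace

namespace Vale.Agent.P082.Full

universe u

variable {H : Type u} [NormedAddCommGroup H] [InnerProductSpace ℂ H] [CompleteSpace H]

attribute [local instance] algCStar

variable {M : VonNeumannAlgebra H} {ξ : ℕ → H}

theorem summable_vec (hξ : VP082.Lit.IsTrace H M ξ) (x : H →L[ℂ] H) :
    Summable fun n => ⟪ξ n, x (ξ n)⟫_ℂ := by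
  refine Summable.of_norm_bounded (hξ.1.summable.mul_left ‖x‖) fun n => ?_
  refine (norm_inner_le_norm _ _).trans ?_
  refine (mul_le_mul_of_nonneg_left (x.le_opNorm _) (norm_nonneg _)).trans_eq ?_
  ring

/-- The tracial state of the vectors `ξ n`. -/
noncomputable def trS (hξ : VP082.Lit.IsTrace H M ξ) : Alg M →ₗ[ℂ] ℂ where
  toFun x := ∑' n, ⟪ξ n, (x : H →L[ℂ] H) (ξ n)⟫_ℂ
  map_add' x y := by
    rw [← (summable_vec hξ _).tsum_add (summable_vec hξ _)]
    simp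
  map_smul' c x := by
    simp [tsum_mul_left]

theorem trS_apply (hξ : VP082.Lit.IsTrace H M ξ) (x : Alg M) :
    trS hξ x = ∑' n, ⟪ξ n, (x : H →L[ℂ] H) (ξ n)⟫_ℂ := rfl

theorem trS_star_mul_self (hξ : VP082.Lit.IsTrace H M ξ) (b : Alg M) :
    trS hξ (star b * b) = ((∑' n, ‖(b : H →L[ℂ] H) (ξ n)‖ ^ 2 : ℝ) : ℂ) := by
  rw [trS_apply, Complex.ofReal_tsum]
  refine tsum_congr fun n => ?_
  show ⟪ξ n, ContinuousLinearMap.adjoint (b : H →L[ℂ] H) ((b : H →L[ℂ] H) (ξ n))⟫_ℂ = _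
  rw [ContinuousLinearMap.adjoint_inner_right, inner_self_eq_norm_sq_to_K]
  simp

theorem summable_sq (hξ : VP082.Lit.IsTrace H M ξ) (x : H →L[ℂ] H) :
    Summable fun n => ‖x (ξ n)‖ ^ 2 :=
  (hξ.1.summable.mul_left (‖x‖ ^ 2)).of_nonneg_of_le (fun _ => sq_nonneg _) fun n => by
    rw [← mul_pow]
    exact pow_le_pow_left₀ (norm_nonneg _) (x.le_opNorm _) 2

theorem trS_comm (hξ : VP082.Lit.IsTrace H M ξ) (x y : Alg M) :
    trS hξ (x * y) = trS hξ (y * x) :=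
  hξ.2 _ x.2 _ y.2

theorem isTr_trS (hξ : VP082.Lit.IsTrace H M ξ) : IsTr (trS hξ) where
  pos b := by
    rw [trS_star_mul_self, Complex.ofReal_re]
    exact tsum_nonneg fun n => sq_nonneg _
  comm := trS_comm hξ
  bound b w := by
    rw [mul_assoc, trS_comm, trS_comm hξ (star b) b]
    have e : trS hξ (b * star b) =
        ((∑' n, ‖((star b : Alg M) : H →L[ℂ] H) (ξ n)‖ ^ 2 : ℝ) : ℂ) := by
      simpa using trS_star_mul_self hξ (star b)
    rw [e, Complex.ofReal_re, trS_apply, ← tsum_mul_left]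
    refine tsum_of_norm_bounded ((summable_sq hξ _).mul_left ‖w‖).hasSum fun n => ?_
    show ‖⟪ξ n, (b : H →L[ℂ] H) ((w : H →L[ℂ] H) ((star b : Alg M).1 (ξ n)))⟫_ℂ‖ ≤ _
    rw [← ContinuousLinearMap.adjoint_inner_left]
    refine (norm_inner_le_norm _ _).trans ?_
    refine (mul_le_mul_of_nonneg_left ((w : H →L[ℂ] H).le_opNorm _) (norm_nonneg _)).trans_eq ?_
    show ‖(star b : Alg M).1 (ξ n)‖ * (‖w‖ * ‖(star b : Alg M).1 (ξ n)‖) =
      ‖w‖ * ‖(star b : Alg M).1 (ξ n)‖ ^ 2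
    ring
  le_one := by
    have h := trS_star_mul_self hξ (1 : Alg M)
    rw [star_one, one_mul] at h
    rw [h, Complex.ofReal_re]
    refine le_of_eq (Eq.trans ?_ hξ.1.tsum_eq)
    exact tsum_congr fun n => rfl

theorem trS_eq_zero (hM : VP082.Lit.IsTypeTwoOne H M) (x : Alg M)
    (hx : ∀ ξ (hξ : VP082.Lit.IsTrace H M ξ), trS hξ (star x * x) = 0) : x = 0 := by
  refine Subtype.ext (hM.2 _ x.2 fun ξ hξ n => ?_)
  have h : ∑' n, ‖(x : H →L[ℂ] H) (ξ n)‖ ^ 2 = 0 := by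
    simpa [trS_star_mul_self] using hx ξ hξ
  have h2 := (summable_sq hξ (x : H →L[ℂ] H)).le_tsum n fun _ _ => sq_nonneg _
  rw [h] at h2
  exact norm_eq_zero.1 (pow_eq_zero_iff two_ne_zero |>.1 (le_antisymm h2 (sq_nonneg _)))

end Vale.Agent.P082.Full
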